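import Vale.Agent.P275FL.Q
import Vale.Agent.P275FM.Sf
import Vale.Agent.P275SM.Lim

/-!
# P275, flat bundles: the three differentials on the forms with values in a local system
-/

set_option linter.unusedSectionVars false

open scoped Manifold ContDiff Topology TensorProduct
open Set
open Vale.Agent.P272.K Vale.Agent.P281Z.Hg Vale.Agent.P275MC Vale.Agent.P275FM
open Vale.Agent.P275SM (Str Qs)

noncomputable section

namespace Vale.Agent.P275FL

section sm

variable {T T' T'' : Type*} [AddCommGroup T] [Module ℂ T] [AddCommGroup T'] [Module ℂ T']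
  [AddCommGroup T''] [Module ℂ T''] {X : Tri T} {X' : Tri T'} {X'' : Tri T''}

/-- morphisms with an explicit factor -/
structure SM (ε : ℂ) (s : ℕ) (X : Tri T) (X' : Tri T') (f : T →ₗ[ℂ] T') : Prop where
  A : ∀ a, X'.A (f a) = ε • f (X.A a)
  B : ∀ a, X'.B (f a) = ε • f (X.B a)
  δ : ∀ a, X'.δ (f a) = ε • f (X.δ a)
  dg : ∀ q a, X'.dg (q + s) (f a) = f (X.dg q a)

variable {ε η : ℂ} {s t : ℕ} {f f' : T →ₗ[ℂ] T'} {g : T' →ₗ[ℂ] T''}

theorem SM.mor (h : SM ε s X X' f) (h0 : ε ≠ 0) : Tri.Mor X X' s f := ⟨⟨ε, h0, h.A, h.B, h.δ⟩, h.dg⟩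

theorem SM.of_str (h : Str X X' f) : SM 1 0 X X' f :=
  ⟨fun a => by rw [h.A, one_smul], fun a => by rw [h.B, one_smul], fun a => by rw [h.δ, one_smul],
    h.dg⟩

theorem SM.D (h : SM ε s X X' f) (a : T) : X'.D (f a) = ε • f (X.D a) := by
  rw [Tri.D_apply, Tri.D_apply, h.A, h.B, h.δ, map_add, map_add, smul_add, smul_add]

theorem SM.comp (k : SM η t X' X'' g) (h : SM ε s X X' f) :
    SM (η * ε) (s + t) X X'' (g ∘ₗ f) :=
  ⟨fun a => (k.A _).trans (by rw [h.A, map_smul, mul_smul]; rfl),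
    fun a => (k.B _).trans (by rw [h.B, map_smul, mul_smul]; rfl),
    fun a => (k.δ _).trans (by rw [h.δ, map_smul, mul_smul]; rfl),
    fun q a => by rw [← add_assoc, LinearMap.comp_apply, k.dg, h.dg]; rfl⟩

theorem SM.add (h : SM ε s X X' f) (h' : SM ε s X X' f') : SM ε s X X' (f + f') :=
  ⟨fun a => by simp only [LinearMap.add_apply, map_add, h.A, h'.A, smul_add],
    fun a => by simp only [LinearMap.add_apply, map_add, h.B, h'.B, smul_add],
    fun a => by simp only [LinearMap.add_apply, map_add, h.δ, h'.δ, smul_add],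
    fun q a => by simp only [LinearMap.add_apply, map_add, h.dg, h'.dg]⟩

theorem SM.congr (h : SM ε s X X' f) (e : η = ε) : SM η s X X' f := e ▸ h

end sm

variable {b : ℕ} {B : Type} [TopologicalSpace B] [ChartedSpace (Cm b) B] [T2Space B]
  [IsManifold 𝓘(ℂ, Cm b) ω B] {c : Cov B}
  {F F' F'' : Type*} [AddCommGroup F] [Module ℂ F] [AddCommGroup F'] [Module ℂ F']
  [AddCommGroup F''] [Module ℂ F'']

theorem loc_dd : Loc (dd b B) := fun _ _ => dd_Ac

namespace Sy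

variable (S : Sy c F)

variable (b) in
/-- the total differential -/
def Dq (D : Module.End ℂ F) : Module.End ℂ (Q b S) :=
  S.map S (dd b B) (fun _ => LinearMap.id) + S.map S (pr b B) fun _ => D

variable (b) in
/-- the three differentials -/
def tri (X : Tri F) : Tri (Q b S) where
  A := S.map S (pr b B) fun _ => X.A
  B := S.map S (pr b B) fun _ => X.B
  δ := S.Dq b X.δ
  dg q := S.map S 1 fun _ => X.dg q

/-- the transitions commute with the three differentials -/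
def Tr (X : Tri F) : Prop := ∀ i j y, y ∈ c.V i → y ∈ c.V j → Str X X (S.τ i j)

variable {S} {S' : Sy c F'} {S'' : Sy c F''} {X : Tri F} {X' : Tri F'} {D : Module.End ℂ F}
  {D' : Module.End ℂ F'} {f : c.ι → F →ₗ[ℂ] F'} {L : Module.End ℂ (SF b B)} {i : c.ι} {a : SF b B}

theorem Tr.eA (h : S.Tr X) : S.Eqv S fun _ => X.A :=
  fun i j y h1 h2 x => ((h i j y h1 h2).A x).symm

theorem Tr.eB (h : S.Tr X) : S.Eqv S fun _ => X.B :=
  fun i j y h1 h2 x => ((h i j y h1 h2).B x).symm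

theorem Tr.eδ (h : S.Tr X) : S.Eqv S fun _ => X.δ :=
  fun i j y h1 h2 x => ((h i j y h1 h2).δ x).symm

theorem Tr.edg (h : S.Tr X) (q : ℕ) : S.Eqv S fun _ => X.dg q :=
  fun i j y h1 h2 x => ((h i j y h1 h2).dg q x).symm

theorem Tr.eD (h : S.Tr X) : S.Eqv S fun _ => X.D :=
  fun i j y h1 h2 x => ((h i j y h1 h2).D x).symm

theorem Dq_gn (hD : S.Eqv S fun _ => D) (ha : a ∈ Ac b (c.V i)) (x : F) :
    S.Dq b D (S.gn i a x) = S.gn i (dd b B a) x + S.gn i (pr b B a) (D x) := by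
  rw [Dq, LinearMap.add_apply, map_gn loc_dd Eqv.id ha, map_gn loc_pr hD ha, LinearMap.id_apply]

theorem tri_A (h : S.Tr X) (ha : a ∈ Ac b (c.V i)) (x : F) :
    (S.tri b X).A (S.gn i a x) = S.gn i (pr b B a) (X.A x) := map_gn loc_pr h.eA ha x

theorem tri_B (h : S.Tr X) (ha : a ∈ Ac b (c.V i)) (x : F) :
    (S.tri b X).B (S.gn i a x) = S.gn i (pr b B a) (X.B x) := map_gn loc_pr h.eB ha x

theorem tri_δ (h : S.Tr X) (ha : a ∈ Ac b (c.V i)) (x : F) :
    (S.tri b X).δ (S.gn i a x) = S.gn i (dd b B a) x + S.gn i (pr b B a) (X.δ x) := Dq_gn h.eδ ha x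

theorem tri_dg (h : S.Tr X) (q : ℕ) (ha : a ∈ Ac b (c.V i)) (x : F) :
    (S.tri b X).dg q (S.gn i a x) = S.gn i a (X.dg q x) := map_gn Loc.one (h.edg q) ha x

theorem tri_D (h : S.Tr X) : (S.tri b X).D = S.Dq b X.D := LinearMap.ext <|
  S.ext fun i a ha x => by
    rw [Tri.D_apply, tri_A h ha, tri_B h ha, tri_δ h ha, Dq_gn h.eD ha, Tri.D_apply, map_add,
      map_add]
    abel

theorem Dq_Dq (hD : S.Eqv S fun _ => D) (h0 : ∀ x, D (D x) = 0) (u : Q b S) :
    S.Dq b D (S.Dq b D u) = 0 :=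
  S.ext (f := S.Dq b D ∘ₗ S.Dq b D) (g := 0) (fun i a ha x => by
    rw [LinearMap.comp_apply, Dq_gn hD ha, map_add, Dq_gn hD (loc_dd ha), Dq_gn hD (loc_pr ha),
      dd_dd, dd_pr, h0]
    simp) u

/-- the parity of the degree on the base -/
theorem pr_map (hf : S.Eqv S' f) (u : Q b S) : S.map S' (pr b B) f u =
    S.map S' 1 f (S.map S (pr b B) (fun _ => LinearMap.id) u) :=
  (map_map Loc.one hf loc_pr Eqv.id u).symm

theorem pr_map' (hf : S.Eqv S' f) (u : Q b S) : S.map S' (pr b B) f u =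
    S'.map S' (pr b B) (fun _ => LinearMap.id) (S.map S' 1 f u) :=
  (map_map loc_pr Eqv.id Loc.one hf u).symm

theorem pr_pr_map {g : c.ι → F' →ₗ[ℂ] F''} (hg : S'.Eqv S'' g) (hf : S.Eqv S' f) (u : Q b S) :
    S'.map S'' (pr b B) g (S.map S' (pr b B) f u) = S.map S'' 1 (fun i => g i ∘ₗ f i) u := by
  rw [map_map loc_pr hg loc_pr hf, show pr b B * pr b B = 1 from LinearMap.ext pr_pr]

theorem par_par (u : Q b S) : S.map S (pr b B) (fun _ => LinearMap.id)
    (S.map S (pr b B) (fun _ => LinearMap.id) u) = u :=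
  (pr_pr_map Eqv.id Eqv.id u).trans (map_id u)

theorem ddl {u v w : Module.End ℂ F} (hu : S.Eqv S fun _ => u) (hv : S.Eqv S fun _ => v)
    (hw : S.Eqv S fun _ => w) (h : ∀ x, u x = 0 → ∃ y, v x = w y) {z : Q b S}
    (hz : S.map S 1 (fun _ => u) z = 0) :
    ∃ y, S.map S (pr b B) (fun _ => v) z = S.map S 1 (fun _ => w) y := by
  obtain ⟨y, hy⟩ := loc_ex hu hv hw (fun _ => h) hz
  exact ⟨_, by rw [pr_map' hv, hy, ← pr_map' hw, pr_map hw]⟩

/-- **the axioms are inherited** -/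
theorem tri_ok (h : S.Tr X) (k : X.OK) : (S.tri b X).OK := by
  have e : ∀ (f g : Module.End ℂ (Q b S)), (∀ i, ∀ a ∈ Ac b (c.V i), ∀ x,
      f (S.gn i a x) = g (S.gn i a x)) → ∀ u, f u = g u := fun _ _ => S.ext
  have p := fun {i a} (ha : a ∈ Ac b (c.V i)) => loc_pr ha
  have d := fun {i a} (ha : a ∈ Ac b (c.V i)) => loc_dd ha
  let Y := S.tri b X
  refine ⟨e (Y.A ∘ₗ Y.A) 0 fun i a ha x => ?_, e (Y.B ∘ₗ Y.B) 0 fun i a ha x => ?_,
    Dq_Dq h.eδ k.δδ, e (Y.A ∘ₗ Y.B) (-(Y.B ∘ₗ Y.A)) fun i a ha x => ?_,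
    e (Y.A ∘ₗ Y.δ) (-(Y.δ ∘ₗ Y.A)) fun i a ha x => ?_,
    e (Y.B ∘ₗ Y.δ) (-(Y.δ ∘ₗ Y.B)) fun i a ha x => ?_, fun j l => ?_, ?_,
    fun q => e (Y.dg (q + 1) ∘ₗ Y.A) (Y.A ∘ₗ Y.dg q) fun i a ha x => ?_,
    e (Y.dg 0 ∘ₗ Y.A) 0 fun i a ha x => ?_,
    fun q => e (Y.dg (q + 1) ∘ₗ Y.B) (Y.B ∘ₗ Y.dg q) fun i a ha x => ?_,
    e (Y.dg 0 ∘ₗ Y.B) 0 fun i a ha x => ?_,
    fun q => e (Y.dg q ∘ₗ Y.δ) (Y.δ ∘ₗ Y.dg q) fun i a ha x => ?_, fun z hz => ?_, fun z hz => ?_⟩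
  · simp [Y, tri_A h ha, tri_A h (p ha), k.AA]
  · simp [Y, tri_B h ha, tri_B h (p ha), k.BB]
  · simp [Y, tri_A h ha, tri_A h (p ha), tri_B h ha, tri_B h (p ha), k.AB]
  · simp [Y, tri_A h ha, tri_A h (p ha), tri_A h (d ha), tri_δ h ha, tri_δ h (p ha), k.Aδ, dd_pr,
      add_comm]
  · simp [Y, tri_B h ha, tri_B h (p ha), tri_B h (d ha), tri_δ h ha, tri_δ h (p ha), k.Bδ, dd_pr,
      add_comm]
  · by_cases hj : j = l
    · simp only [if_pos hj]
      exact e (Y.dg j ∘ₗ Y.dg l) _ fun i a ha x => by simp [Y, tri_dg h _ ha, k.dg_mul, hj]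
    · simp only [if_neg hj]
      exact e (Y.dg j ∘ₗ Y.dg l) 0 fun i a ha x => by simp [Y, tri_dg h _ ha, k.dg_mul, hj]
  · obtain ⟨N, hN⟩ := k.dg_sum
    refine ⟨N, fun u => (LinearMap.sum_apply _ _ u).symm.trans (e _ 1 (fun i a ha x => ?_) u)⟩
    simp only [LinearMap.sum_apply, tri_dg h _ ha, ← map_sum, hN, Module.End.one_apply]
  · simp [Y, tri_A h ha, tri_dg h _ ha, tri_dg h _ (p ha), k.dgA]
  · simp [Y, tri_A h ha, tri_dg h _ (p ha), k.dg0A]
  · simp [Y, tri_B h ha, tri_dg h _ ha, tri_dg h _ (p ha), k.dgB]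
  · simp [Y, tri_B h ha, tri_dg h _ (p ha), k.dg0B]
  · simp [Y, tri_δ h ha, tri_dg h _ ha, tri_dg h _ (p ha), tri_dg h _ (d ha), k.dgδ]
  · obtain ⟨y, hy⟩ := ddl (h.eA.comp h.eB) h.eB (h.eA.comp h.eB) k.l1
      ((pr_pr_map h.eA h.eB z).symm.trans hz)
    exact ⟨y, hy.trans (pr_pr_map h.eA h.eB y).symm⟩
  · obtain ⟨y, hy⟩ := ddl (h.eB.comp h.eA) h.eA (h.eA.comp h.eB) k.l2
      ((pr_pr_map h.eB h.eA z).symm.trans hz)
    exact ⟨y, hy.trans (pr_pr_map h.eA h.eB y).symm⟩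

theorem Dq_map {ε α : ℂ} (hD : S.Eqv S fun _ => D) (hD' : S'.Eqv S' fun _ => D') (hL : Loc L)
    (hf : S.Eqv S' f) (h1 : ∀ a, pr b B (L a) = α • L (pr b B a))
    (h2 : ∀ a, dd b B (L a) = (α * ε) • L (dd b B a)) (h3 : ∀ i x, D' (f i x) = ε • f i (D x))
    (u : Q b S) : S'.Dq b D' (S.map S' L f u) = (α * ε) • S.map S' L f (S.Dq b D u) :=
  S.ext (f := S'.Dq b D' ∘ₗ S.map S' L f) (g := (α * ε) • (S.map S' L f ∘ₗ S.Dq b D))
    (fun i a ha x => by
      simp only [LinearMap.comp_apply, LinearMap.smul_apply, map_gn hL hf ha, Dq_gn hD' (hL ha),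
        Dq_gn hD ha, map_add, map_gn hL hf (loc_dd ha), map_gn hL hf (loc_pr ha), h1, h2, h3,
        map_smul, smul_add, smul_smul, mul_comm ε]) u

theorem Dq_map1 (hD : S.Eqv S fun _ => D) (hD' : S'.Eqv S' fun _ => D') (hf : S.Eqv S' f)
    (h : ∀ i x, D' (f i x) = f i (D x)) (u : Q b S) :
    S'.Dq b D' (S.map S' 1 f u) = S.map S' 1 f (S.Dq b D u) := by
  simpa only [one_mul, one_smul] using Dq_map (ε := 1) (α := 1) hD hD' Loc.one hf
    (fun _ => (one_smul _ _).symm) (fun _ => by rw [one_mul, one_smul]; rfl)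
    (fun i x => by rw [h, one_smul]) u

/-- **morphisms** -/
theorem sm_map {ε α : ℂ} {s : ℕ} (h : S.Tr X) (h' : S'.Tr X') (hL : Loc L) (hf : S.Eqv S' f)
    (h1 : ∀ a, pr b B (L a) = α • L (pr b B a)) (h2 : ∀ a, dd b B (L a) = (α * ε) • L (dd b B a))
    (h3 : ∀ i, SM ε s X X' (f i)) : SM (α * ε) s (S.tri b X) (S'.tri b X') (S.map S' L f) := by
  refine ⟨S.ext (f := (S'.tri b X').A ∘ₗ S.map S' L f)
      (g := (α * ε) • (S.map S' L f ∘ₗ (S.tri b X).A)) fun i a ha x => ?_,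
    S.ext (f := (S'.tri b X').B ∘ₗ S.map S' L f)
      (g := (α * ε) • (S.map S' L f ∘ₗ (S.tri b X).B)) fun i a ha x => ?_,
    Dq_map h.eδ h'.eδ hL hf h1 h2 fun i => (h3 i).δ,
    fun q => S.ext (f := (S'.tri b X').dg (q + s) ∘ₗ S.map S' L f)
      (g := S.map S' L f ∘ₗ (S.tri b X).dg q) fun i a ha x => ?_⟩
  · simp only [LinearMap.comp_apply, LinearMap.smul_apply, map_gn hL hf ha, tri_A h' (hL ha),
      tri_A h ha, map_gn hL hf (loc_pr ha), h1, (h3 i).A, map_smul, smul_smul, mul_comm ε]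
  · simp only [LinearMap.comp_apply, LinearMap.smul_apply, map_gn hL hf ha, tri_B h' (hL ha),
      tri_B h ha, map_gn hL hf (loc_pr ha), h1, (h3 i).B, map_smul, smul_smul, mul_comm ε]
  · simp only [LinearMap.comp_apply, map_gn hL hf ha, tri_dg h' _ (hL ha), tri_dg h _ ha,
      (h3 i).dg]

theorem str_map (h : S.Tr X) (h' : S'.Tr X') (hf : S.Eqv S' f) (h3 : ∀ i, Str X X' (f i)) :
    Str (S.tri b X) (S'.tri b X') (S.map S' 1 f) :=
  have k := sm_map (α := 1) h h' Loc.one hf (fun _ => (one_smul _ _).symm)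
    (fun _ => by rw [one_mul, one_smul]; rfl) fun i => SM.of_str (h3 i)
  ⟨fun u => by rw [k.A, one_mul, one_smul], fun u => by rw [k.B, one_mul, one_smul],
    fun u => by rw [k.δ, one_mul, one_smul], k.dg⟩

theorem map_add' {f' : c.ι → F →ₗ[ℂ] F'} (hL : Loc L) (hf : S.Eqv S' f) (hf' : S.Eqv S' f')
    (u : Q b S) : S.map S' L (fun i => f i + f' i) u = S.map S' L f u + S.map S' L f' u :=
  S.ext (g := S.map S' L f + S.map S' L f') (fun i a ha x => by
    simp only [LinearMap.add_apply, map_gn hL hf ha, map_gn hL hf' ha, map_gn hL (hf.add hf') ha,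
      map_add]) u

theorem map_neg' (hL : Loc L) (hf : S.Eqv S' f) (u : Q b S) :
    S.map S' L (fun i => -f i) u = -S.map S' L f u :=
  S.ext (g := -S.map S' L f) (fun i a ha x => by
    simp only [LinearMap.neg_apply, map_gn hL hf ha, map_gn hL hf.neg ha, map_neg]) u

theorem map_map1 {g : c.ι → F' →ₗ[ℂ] F''} (hg : S'.Eqv S'' g) (hf : S.Eqv S' f) (u : Q b S) :
    S'.map S'' 1 g (S.map S' 1 f u) = S.map S'' 1 (fun i => g i ∘ₗ f i) u :=
  map_map Loc.one hg Loc.one hf u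

theorem prod_ext {u : Q b (S.prod S')} (h1 : (S.prod S').map S 1 (fun _ => .fst ℂ F F') u = 0)
    (h2 : (S.prod S').map S' 1 (fun _ => .snd ℂ F F') u = 0) : u = 0 := by
  have h := map_add' Loc.one (Eqv.inl.comp Eqv.fst) (Eqv.inr.comp Eqv.snd) u
  rw [← map_map1 Eqv.inl Eqv.fst, ← map_map1 Eqv.inr Eqv.snd, h1, h2, map_zero, map_zero, add_zero,
    show LinearMap.inl ℂ F F' ∘ₗ .fst ℂ F F' + .inr ℂ F F' ∘ₗ .snd ℂ F F' = .id from
      LinearMap.ext fun x => by simp, map_id] at h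
  exact h

theorem qs_fib (hD : S.Eqv S fun _ => D) (hD' : S'.Eqv S' fun _ => D') (hf : S.Eqv S' f)
    (h : ∀ i, Qs D D' (f i)) :
    Qs (S.map (b := b) S 1 fun _ => D) (S'.map S' 1 fun _ => D') (S.map S' 1 f) := by
  have e1 := hD.comp (Eqv.fst (S := S) (S' := S'))
  have e2 := (hf.comp Eqv.fst).add (hD'.comp (Eqv.snd (S := S) (S' := S'))).neg
  have e := e1.prod e2
  have k1 : ∀ w : Q b _, _ := fun w => (map_map1 Eqv.fst e w).trans (map_map1 hD Eqv.fst w).symm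
  have k2 : ∀ w : Q b _, _ := fun w => (map_map1 Eqv.snd e w).trans
    ((map_add' Loc.one (hf.comp Eqv.fst) (hD'.comp Eqv.snd).neg w).trans (by
      rw [map_neg' Loc.one (hD'.comp Eqv.snd), ← map_map1 hf Eqv.fst, ← map_map1 hD' Eqv.snd,
        ← sub_eq_add_neg]))
  refine ⟨fun u => ?_, fun z y hz hy => ?_, fun z hz => ?_⟩
  · rw [map_map1 hD' hf, map_map1 hf hD]
    exact congrArg (fun g => S.map S' 1 g u) (funext fun i => LinearMap.ext (h i).comm)
  · have a1 : ∀ (z : Q b S) (y : Q b S'), (S.prod S').map S 1 (fun _ => .fst ℂ F F')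
        (S.map _ 1 (fun _ => .inl ℂ F F') z + S'.map _ 1 (fun _ => .inr ℂ F F') y) = z :=
      fun z y => by
        rw [map_add, map_map1 Eqv.fst Eqv.inl, map_map1 Eqv.fst Eqv.inr, LinearMap.fst_comp_inl,
          LinearMap.fst_comp_inr, map_id, map_zero' Loc.one, add_zero]
    have a2 : ∀ (z : Q b S) (y : Q b S'), (S.prod S').map S' 1 (fun _ => .snd ℂ F F')
        (S.map _ 1 (fun _ => .inl ℂ F F') z + S'.map _ 1 (fun _ => .inr ℂ F F') y) = y :=
      fun z y => by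
        rw [map_add, map_map1 Eqv.snd Eqv.inl, map_map1 Eqv.snd Eqv.inr, LinearMap.snd_comp_inl,
          LinearMap.snd_comp_inr, map_id, map_zero' Loc.one, zero_add]
    obtain ⟨w, hw⟩ := loc_ex e Eqv.fst hD (fun i x hx => (h i).inj x.1 x.2 (congrArg Prod.fst hx)
      (add_neg_eq_zero.1 (congrArg Prod.snd hx))) (prod_ext (by rw [k1, a1 z y, hz])
        (by rw [k2, a1, a2, hy, sub_self]))
    exact ⟨w, (a1 z y).symm.trans hw⟩
  · obtain ⟨w, hw⟩ := loc_ex hD' Eqv.inr e (fun i x hx =>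
      let ⟨z, y, h1, h2⟩ := (h i).surj x hx
      ⟨(z, y), Prod.ext h1.symm (by
        change x = f i z + -D' y
        rw [← h2]
        abel)⟩) hz
    refine ⟨_, _, (k1 w).symm.trans ?_, sub_eq_iff_eq_add.2 (sub_eq_iff_eq_add'.1 ((k2 w).symm.trans
      ?_))⟩
    · rw [← hw, map_map1 Eqv.fst Eqv.inr, LinearMap.fst_comp_inr, map_zero' Loc.one]
    · rw [← hw, map_map1 Eqv.snd Eqv.inr, LinearMap.snd_comp_inr, map_id]

theorem gr_pj : IsGr fun k : ℕ => S.map S (pj b B k) fun _ => LinearMap.id where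
  mul j k u := by
    rw [map_map (loc_pj _) Eqv.id (loc_pj _) Eqv.id]
    split_ifs with e
    · exact congrArg (fun L => S.map S L _ u) (LinearMap.ext fun a =>
        (P275FM.gr_pj.mul j k a).trans (if_pos e))
    · refine S.ext (g := 0) (fun i a ha x => ?_) u
      rw [map_gn ((loc_pj _).mul (loc_pj _)) (Eqv.id.comp Eqv.id) ha, Module.End.mul_apply,
        P275FM.gr_pj.orth e, map_zero, LinearMap.zero_apply, LinearMap.zero_apply]
  sum := ⟨b + b + 1, fun u => (LinearMap.sum_apply _ _ u).symm.trans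
    (S.ext (g := LinearMap.id) (fun i a ha x => by
      simp only [LinearMap.sum_apply, map_gn (loc_pj _) Eqv.id ha, LinearMap.id_apply]
      rw [← LinearMap.sum_apply, ← map_sum, pj_sum]) u)⟩

theorem pj_map (hf : S.Eqv S' f) (hL : Loc L) {j k : ℤ}
    (h : ∀ a, pj b B k (L a) = L (pj b B j a)) (u : Q b S) :
    S'.map S' (pj b B k) (fun _ => LinearMap.id) (S.map S' L f u) =
      S.map S' L f (S.map S (pj b B j) (fun _ => LinearMap.id) u) := by
  rw [map_map (loc_pj _) Eqv.id hL hf, map_map hL hf (loc_pj _) Eqv.id]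
  exact congrArg (fun L => S.map S' L f u) (LinearMap.ext h)

theorem pj_pr (k : ℕ) (a : SF b B) : pj b B k (pr b B a) = pr b B (pj b B k a) :=
  P275FM.gr_pj.map_ext (f := (pj b B k ∘ₗ pr b B).toAddMonoidHom)
    (g := (pr b B ∘ₗ pj b B k).toAddMonoidHom) (fun q v => by
      change pj b B k (pr b B (pj b B q v)) = pr b B (pj b B k (pj b B q v))
      rw [pr_pj, map_smul, P275FM.gr_pj.mul]
      split_ifs
      · rw [pr_pj]
      · rw [smul_zero, map_zero]) a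

theorem pj_low (k : ℕ) (u : Q b S)
    (h : ∀ j < k, S.map S (pj b B (j : ℕ)) (fun _ => LinearMap.id) u = 0) :
    S.map S (pj b B k) (fun _ => LinearMap.id)
      (S.map S (dd b B) (fun _ => LinearMap.id) u) = 0 := by
  rw [pj_map Eqv.id loc_dd (j := k - 1) fun a => by rw [← pj_dd, sub_add_cancel]]
  cases k with
  | zero =>
    refine (congrArg _ (S.ext (g := 0) (fun i a ha x => ?_) u)).trans (map_zero _)
    rw [map_gn (loc_pj _) Eqv.id ha, Nat.cast_zero, zero_sub, pj_neg_one, map_zero,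
      LinearMap.zero_apply, LinearMap.zero_apply]
  | succ k => rw [Nat.cast_succ, add_sub_cancel_right, h k k.lt_succ_self, map_zero]

/-- **quasi-isomorphisms are inherited** -/
theorem qs_map (hD : S.Eqv S fun _ => D) (hD' : S'.Eqv S' fun _ => D') (h0 : ∀ x, D (D x) = 0)
    (h0' : ∀ x, D' (D' x) = 0) (hf : S.Eqv S' f) (h : ∀ i, Qs D D' (f i)) :
    Qs (S.Dq b D) (S'.Dq b D') (S.map S' 1 f) := by
  have q := qs_fib (b := b) hD hD' hf h
  have d := Dq_Dq (b := b) hD h0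
  have d' := Dq_Dq (b := b) hD' h0'
  rw [Dq, add_comm] at d d'
  rw [Dq, Dq, add_comm, add_comm (S'.map S' _ _)]
  refine Qs.cols gr_pj gr_pj d d' (fun k => pj_map hD loc_pr (pj_pr k))
    (fun k => pj_map hD' loc_pr (pj_pr k)) pj_low pj_low (fun k => pj_map hf Loc.one fun _ => rfl)
    (fun u => (map_map loc_dd Eqv.id Loc.one hf u).trans (map_map Loc.one hf loc_dd Eqv.id u).symm)
    ⟨fun u => ?_, fun z y hz e => ?_, fun z hz => ?_⟩
  · rw [pr_map' hD', q.comm, ← pr_map' hf, pr_map hf, ← pr_map' hD]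
  · rw [pr_map' hD] at hz
    obtain ⟨w, hw⟩ := q.inj z _ (by rw [← par_par (S.map S 1 _ z), hz, map_zero])
      (e.trans (pr_map hD' y))
    exact ⟨_, by rw [pr_map hD, par_par, hw]⟩
  · rw [pr_map' hD'] at hz
    obtain ⟨w, y, h1, h2⟩ := q.surj z (by rw [← par_par (S'.map S' 1 _ z), hz, map_zero])
    exact ⟨w, _, by rw [pr_map' hD, h1, map_zero], by rw [pr_map hD', par_par, h2]⟩

/-- short exact sequences are inherited -/
theorem ses_map {D'' : Module.End ℂ F''} {g : c.ι → F' →ₗ[ℂ] F''} (hD : S.Eqv S fun _ => D)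
    (hD' : S'.Eqv S' fun _ => D') (hD'' : S''.Eqv S'' fun _ => D'') (hf : S.Eqv S' f)
    (hg : S'.Eqv S'' g) (h0 : ∀ x, D' (D' x) = 0) (h : ∀ i, SES D D' D'' (f i) (g i)) :
    SES (S.Dq b D) (S'.Dq b D') (S''.Dq b D'') (S.map S' 1 f) (S'.map S'' 1 g) where
  dd := Dq_Dq hD' h0
  di := Dq_map1 hD hD' hf fun i => (h i).di
  dp := Dq_map1 hD' hD'' hg fun i => (h i).dp
  inj := (injective_iff_map_eq_zero _).2 fun u hu => by
    obtain ⟨y, hy⟩ := loc_ex hf Eqv.id (Eqv.zero (S := S) (S' := S))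
      (fun i x hx => ⟨0, (h i).inj (hx.trans (map_zero _).symm)⟩) hu
    rwa [map_id, map_zero' Loc.one] at hy
  surj u := by
    obtain ⟨y, hy⟩ := loc_ex (Eqv.zero (S := S'') (S' := S'')) Eqv.id hg
      (fun i x _ => ((h i).surj x).imp fun _ => Eq.symm) (map_zero' Loc.one u)
    exact ⟨y, hy.symm.trans (map_id u)⟩
  ex u := ⟨fun hu => (loc_ex hg Eqv.id hf (fun i x => ((h i).ex x).1) hu).imp
    fun _ hy => (map_id u).symm.trans hy, by
    rintro ⟨y, rfl⟩
    rw [map_map1 hg hf, show (fun i => g i ∘ₗ f i) = fun _ => 0 from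
      funext fun i => LinearMap.ext (h i).pi, map_zero' Loc.one]⟩

end Sy

end Vale.Agent.P275FL
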