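import Vale.Agent.P275KU.Cr
import Vale.Agent.P275MC.Ext

/-!
# P275, flat bundles: the definition
-/

open scoped Manifold ContDiff Topology
open Set
open Vale.Agent.P272.K Vale.Agent.P272.K.Prod Vale.Agent.P281Z.Hg Vale.Agent.P275MC

noncomputable section

namespace Vale.Agent.P275FL

attribute [local instance] prodCS

/-- a flat bundle `T → B` with fibre `M`: `(p, q i)` is a diffeomorphism from `p ⁻¹' V i` onto
`V i × M` with inverse `s i`, and the transitions `t i j` are constant -/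
structure Fl (N b m : ℕ) (T B M : Type) [TopologicalSpace T] [ChartedSpace (Cm N) T]
    [TopologicalSpace B] [ChartedSpace (Cm b) B] [TopologicalSpace M] [ChartedSpace (Cm m) M] :
    Type 1 where
  ι : Type
  V : ι → Set B
  p : T → B
  q : ι → T → M
  s : ι → B × M → T
  t : ι → ι → M → M
  opn : ∀ i, IsOpen (V i)
  cov : ∀ x, ∃ i, x ∈ V i
  smp : Smo N b p
  smq : ∀ i z, p z ∈ V i → SmA N m (q i) z
  sms : ∀ i y, y.1 ∈ V i → SmA (b + m) N (s i) y
  smt : ∀ i j, Smo m m (t i j)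
  prt : ∀ i j, IsProperMap (t i j)
  spq : ∀ i z, p z ∈ V i → s i (p z, q i z) = z
  ps : ∀ i y, y.1 ∈ V i → p (s i y) = y.1
  qs : ∀ i y, y.1 ∈ V i → q i (s i y) = y.2
  tr : ∀ i j z, p z ∈ V i → p z ∈ V j → q j z = t i j (q i z)

namespace Fl

variable {N b m : ℕ} {T B M : Type} [TopologicalSpace T] [ChartedSpace (Cm N) T]
  [TopologicalSpace B] [ChartedSpace (Cm b) B] [TopologicalSpace M] [ChartedSpace (Cm m) M]
  (F : Fl N b m T B M) {i j k : F.ι} {x : B}

theorem t_eq (hi : x ∈ F.V i) (hj : x ∈ F.V j) (y : M) : F.t i j y = F.q j (F.s i (x, y)) := by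
  have h := F.ps i (x, y) hi
  rw [F.tr i j _ (h ▸ hi) (h ▸ hj), F.qs i (x, y) hi]

theorem t_self (hi : x ∈ F.V i) (y : M) : F.t i i y = y :=
  (F.t_eq hi hi y).trans (F.qs i (x, y) hi)

theorem t_t (hi : x ∈ F.V i) (hj : x ∈ F.V j) (hk : x ∈ F.V k) (y : M) :
    F.t j k (F.t i j y) = F.t i k y := by
  have h := F.ps i (x, y) hi
  rw [F.t_eq hi hj, F.t_eq hi hk, F.tr j k _ (h ▸ hj) (h ▸ hk)]

/-- refinement of the cover -/
def ref {κ : Type} (W : κ → Set B) (r : κ → F.ι) (h1 : ∀ a, IsOpen (W a)) (h2 : ∀ x, ∃ a, x ∈ W a)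
    (h3 : ∀ a, W a ⊆ F.V (r a)) : Fl N b m T B M where
  ι := κ
  V := W
  p := F.p
  q a := F.q (r a)
  s a := F.s (r a)
  t a a' := F.t (r a) (r a')
  opn := h1
  cov := h2
  smp := F.smp
  smq a z h := F.smq _ z (h3 a h)
  sms a y h := F.sms _ y (h3 a h)
  smt _ _ := F.smt _ _
  prt _ _ := F.prt _ _
  spq a z h := F.spq _ z (h3 a h)
  ps a y h := F.ps _ y (h3 a h)
  qs a y h := F.qs _ y (h3 a h)
  tr a a' z h h' := F.tr _ _ z (h3 a h) (h3 a' h')

variable {N' b' m' : ℕ} {T' B' M' : Type} [TopologicalSpace T'] [ChartedSpace (Cm N') T']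
  [TopologicalSpace B'] [ChartedSpace (Cm b') B'] [TopologicalSpace M'] [ChartedSpace (Cm m') M']

/-- `f` covers `g` and is given by `φ` in the trivialisations `i'` and `i` -/
def Ov (F' : Fl N' b' m' T' B' M') (f : T' → T) (g : B' → B) (i' : F'.ι) (i : F.ι) (φ : M' → M) :
    Prop := ∀ z, F'.p z ∈ F'.V i' → g (F'.p z) ∈ F.V i → F.q i (f z) = φ (F'.q i' z)

end Fl

end Vale.Agent.P275FL
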