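import Vale.Agent.P275FL.Main
import Vale.Agent.P275FK.Ku

/-!
# P275, flat bundles: the weights exist, without hypothesis
-/

namespace Vale.Agent.P275FL

/-- **FLAT** -/
theorem flat : P275B.FLAT := flat_of fun F => F.fl.ku

end Vale.Agent.P275FL
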