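import Vale.Agent.P275FL.Defs
import Vale.Agent.P275MC.Hol

/-!
# P275, flat bundles: the product of a form on the base and of a form on the fibre
-/

set_option linter.unusedSectionVars false

open scoped Manifold ContDiff Topology
open Set Filter TopologicalSpace
open Vale.Agent.P272.K Vale.Agent.P272.K.Prod Vale.Agent.P281Z.Hg Vale.Agent.P275MC
  Vale.Agent.P275KU Vale.Agent.P281Z.Hg.G2H Vale.Agent.P281Z.Hg.Pb1H Vale.Agent.P272.K.INT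

noncomputable section

namespace Vale.Agent.P275FL

section loc

variable {d d' e : ℕ} {X Y S : Type} [TopologicalSpace X] [ChartedSpace (Cm d) X]
  [IsManifold 𝓘(ℂ, Cm d) ω X] [TopologicalSpace Y] [ChartedSpace (Cm d') Y]
  [IsManifold 𝓘(ℂ, Cm d') ω Y] [TopologicalSpace S] [ChartedSpace (Cm e) S]
  [IsManifold 𝓘(ℂ, Cm e) ω S] {O : Opens X} {u v : SF d X} {w : SF d' Y} {C : Set X}

variable (d) in
theorem ov (O : Opens X) : OE d (Subtype.val : O → X) :=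
  oe_of_emb (S := O) ⟨contMDiff_subtype_val, Subtype.val_injective, fun x =>
    .of_chart (contMDiff_subtype_val x) (ca x) (ca _) (P281Z.imm_id (n := d) x _ _ (ca x) (ca x)),
    Subtype.range_coe⟩

theorem smo_lift {X' : Type} [TopologicalSpace X'] [ChartedSpace (Cm d) X'] {i : X' → X}
    (h : OE d i) {k : S → X'} (hk : Smo e d fun s => i (k s)) : Smo e d k := smo_of fun s => by
  obtain ⟨g, -, h2, h3⟩ := h.inv (k s)
  refine (h2.comp (f := fun s => i (k s)) (smA_of hk s)).congr ?_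
  exact (hk.cont.continuousAt.eventually h3).mono fun z hz => (h.inj hz).symm

theorem smo_on {f : X → Y} (h : ∀ x ∈ O, SmA d d' f x) : Smo d d' fun x : O => f x :=
  smo_of fun x => (h x x.2).comp (smA_of (ov d O).smo x)

/-- two forms which agree on an open set and vanish outside it -/
theorem ext_loc (O : Opens X) (h : pb (ov d O).smo u = pb (ov d O).smo v)
    (hu : ∀ x ∉ O, u ∈ ZP x) (hv : ∀ x ∉ O, v ∈ ZP x) : u = v :=
  sub_eq_zero.1 ((ov d O).pb_inj (fun x hx =>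
    have k : x ∉ O := fun k => hx ⟨⟨x, k⟩, rfl⟩
    Submodule.sub_mem _ (hu x k) (hv x k)) (by rw [map_sub, h, sub_self]))

theorem ex_cl (hC : IsClosed C) (h : C ⊆ O) {w : SF d O} (hw : ∀ x : O, x.1 ∉ C → w ∈ ZP x) :
    ∃ v ∈ Sp d C, pb (ov d O).smo v = w := by
  rcases isEmpty_or_nonempty O with hM | hM
  · exact ⟨0, Submodule.zero_mem _, ext' fun _ x => hM.elim x⟩
  have k := ov d O
  have h1 := Function.leftInverse_invFun k.inj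
  obtain ⟨v, h2, h3⟩ := ex_pbOn (f := Function.invFun (Subtype.val : O → X)) (ρ := fun _ => 1)
    O.isOpen (fun x hx => k.smA_inv ⟨x, hx⟩) hC h (fun _ _ _ => contDiffAt_const) w
    fun x hx a => Or.inr ((h1 ⟨x, hx⟩).symm ▸ hw ⟨x, hx⟩ a)
  refine ⟨v, h2, ext' fun e x he => ?_⟩
  have he' : At e (Function.invFun Subtype.val x.1) := (h1 x).symm ▸ he
  rw [pb_pv k.smo v he (ca _), pv_comp (a := w) (smA_of k.smo x) (k.smA_inv x) he (ca _) he' (by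
    rw [h3 _ e _ x.2 (ca _) he', Complex.ofReal_one, one_smul]),
    pv_congr (.of_forall h1) he, pv_id w he he]

/-- pull-back by a map which is defined on an open set, extended by zero -/
def px {g : O → Y} (hg : Smo d d' g) : SF d' Y →ₗ[ℂ] SF d X := (ov d O).ext ∘ₗ pb hg

variable {g : O → Y} (hg : Smo d d' g)

theorem px_eq (h : ∀ x ∉ O, v ∈ ZP x) (e : pb (ov d O).smo v = pb hg w) : px hg w = v :=
  (ov d O).ext_eq (fun x hx => h x fun k => hx ⟨⟨x, k⟩, rfl⟩) e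

theorem px_spec (hC : IsClosed C) (h : C ⊆ O) (hw : ∀ x : O, x.1 ∉ C → w ∈ ZP (g x)) :
    px hg w ∈ Sp d C ∧ pb (ov d O).smo (px hg w) = pb hg w := by
  obtain ⟨v, h1, h2⟩ := ex_cl hC h fun x hx => pb_ZP hg (hw x hx)
  rw [px_eq hg (fun x hx => h1 x fun k => hx (h k)) h2]
  exact ⟨h1, h2⟩

theorem pb_ext {f f' : S → Y} (hf : Smo e d' f) (hf' : Smo e d' f') (h : ∀ x, f x = f' x)
    (a : SF d' Y) : pb hf a = pb hf' a := by
  obtain rfl : f = f' := funext h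
  rfl

theorem pb_pb {k : S → X} {f : X → Y} {f' : S → Y} (hk : Smo e d k) (hf : Smo d d' f)
    (hf' : Smo e d' f') (h : ∀ x, f (k x) = f' x) (a : SF d' Y) :
    pb hk (pb hf a) = pb hf' a := by
  rw [← pb_comp]
  exact pb_ext _ _ h a

variable {hg} in
theorem pb_via (e1 : pb (ov d O).smo v = pb hg w) {k : S → X} {k' : S → Y} (hk : Smo e d k)
    (hk' : Smo e d' k') (h : ∀ s, k s ∈ O) (e2 : ∀ s, g ⟨k s, h s⟩ = k' s) :
    pb hk v = pb hk' w :=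
  have l := smo_lift (ov d O) (k := fun s => ⟨k s, h s⟩) hk
  (pb_pb l (ov d O).smo hk (fun _ => rfl) v).symm.trans (e1 ▸ pb_pb l hg hk' e2 w)

end loc

attribute [local instance] prodCS isManifold_prod

namespace Fl

variable {N b m : ℕ} {T B M : Type} [TopologicalSpace T] [ChartedSpace (Cm N) T]
  [IsManifold 𝓘(ℂ, Cm N) ω T] [TopologicalSpace B] [ChartedSpace (Cm b) B]
  [IsManifold 𝓘(ℂ, Cm b) ω B] [TopologicalSpace M] [ChartedSpace (Cm m) M]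
  [IsManifold 𝓘(ℂ, Cm m) ω M] (F : Fl N b m T B M) {i j : F.ι}

/-- the part of the total space over a chart -/
def O (i : F.ι) : Opens T := ⟨F.p ⁻¹' F.V i, (F.opn i).preimage F.smp.cont⟩

/-- the part of the product over a chart -/
def P (i : F.ι) : Opens (B × M) := ⟨Prod.fst ⁻¹' F.V i, (F.opn i).preimage continuous_fst⟩

theorem smp' (i : F.ι) : Smo N b fun z : F.O i => F.p z := smo_on fun _ _ => smA_of F.smp _

theorem smq' (i : F.ι) : Smo N m fun z : F.O i => F.q i z := smo_on (F.smq i)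

theorem smpq (i : F.ι) : Smo N (b + m) fun z : F.O i => (F.p z, F.q i z) :=
  smo_pair (F.smp' i) (F.smq' i)

theorem sms' (i : F.ι) : Smo (b + m) N fun y : F.P i => F.s i y := smo_on (F.sms i)

/-- from the product to the total space -/
def ex (i : F.ι) : SF (b + m) (B × M) →ₗ[ℂ] SF N T := px (F.smpq i)

/-- from the total space to the product -/
def rs (i : F.ι) : SF N T →ₗ[ℂ] SF (b + m) (B × M) := px (F.sms' i)

/-- the product of a form on the base and of a form on the fibre -/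
def kp (i : F.ι) : SF b B →ₗ[ℂ] SF m M →ₗ[ℂ] SF N T := (cr b m B M).compr₂ (F.ex i)

theorem kp_apply (i : F.ι) (a : SF b B) (x : SF m M) : F.kp i a x = F.ex i (cr b m B M a x) := rfl

variable {K U : Set B} {W : Set M} {w : SF (b + m) (B × M)} {u : SF N T} {a : SF b B} {x : SF m M}

theorem ex_spec (hK : IsClosed K) (h : K ⊆ F.V i) (hw : w ∈ Sp (b + m) (Prod.fst ⁻¹' K)) :
    F.ex i w ∈ Sp N (F.p ⁻¹' K) ∧ pb (ov N (F.O i)).smo (F.ex i w) = pb (F.smpq i) w :=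
  px_spec _ (hK.preimage F.smp.cont) (preimage_mono h) fun _ hz => hw _ hz

theorem rs_spec (hK : IsClosed K) (h : K ⊆ F.V i) (hu : u ∈ Sp N (F.p ⁻¹' K)) :
    F.rs i u ∈ Sp (b + m) (Prod.fst ⁻¹' K) ∧
      pb (ov (b + m) (F.P i)).smo (F.rs i u) = pb (F.sms' i) u :=
  px_spec _ (hK.preimage continuous_fst) (preimage_mono h) fun y hy =>
    hu _ fun k => hy (by rwa [mem_preimage, F.ps i y y.2] at k)

theorem rs_ex (hK : IsClosed K) (h : K ⊆ F.V i) (hw : w ∈ Sp (b + m) (Prod.fst ⁻¹' K)) :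
    F.rs i (F.ex i w) = w :=
  px_eq _ (fun y hy => hw y fun k => hy (h k)) (pb_via (F.ex_spec hK h hw).2 (F.sms' i) _
    (fun y => show F.p _ ∈ F.V i from (F.ps i y y.2).symm ▸ y.2)
    fun y => Prod.ext (F.ps i y y.2) (F.qs i y y.2)).symm

theorem ex_rs (hK : IsClosed K) (h : K ⊆ F.V i) (hu : u ∈ Sp N (F.p ⁻¹' K)) :
    F.ex i (F.rs i u) = u :=
  px_eq _ (fun y hy => hu y fun k => hy (h k)) (pb_via (F.rs_spec hK h hu).2 (F.smpq i) _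
    (fun y => y.2) fun y => F.spq i y y.2).symm

theorem ex_dd (hK : IsClosed K) (h : K ⊆ F.V i) (hw : w ∈ Sp (b + m) (Prod.fst ⁻¹' K)) :
    F.ex i (dd _ _ w) = dd N T (F.ex i w) :=
  px_eq _ (fun y hy => dd_Sp (hK.preimage F.smp.cont) (F.ex_spec hK h hw).1 y fun k => hy (h k))
    (by rw [pb_dd, pb_dd, (F.ex_spec hK h hw).2])

theorem ex_pj (hK : IsClosed K) (h : K ⊆ F.V i) (hw : w ∈ Sp (b + m) (Prod.fst ⁻¹' K)) (k : ℤ) :
    F.ex i (pj _ _ k w) = pj N T k (F.ex i w) :=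
  px_eq _ (fun y hy => op_Sp (opr_vl _) (F.ex_spec hK h hw).1 y fun k => hy (h k))
    (by rw [pb_pj, pb_pj, (F.ex_spec hK h hw).2])

theorem ex_ZP (hK : IsClosed K) (h : K ⊆ F.V i) (hw : w ∈ Sp (b + m) (Prod.fst ⁻¹' K)) {z : T}
    (hz : F.p z ∈ F.V i → w ∈ ZP (F.p z, F.q i z)) : F.ex i w ∈ ZP z := by
  by_cases k : F.p z ∈ F.V i
  · refine ((ov N (F.O i)).pb_ZP_iff (x := ⟨z, k⟩)).1 ?_
    rw [(F.ex_spec hK h hw).2]
    exact pb_ZP _ (hz k)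
  · exact (F.ex_spec hK h hw).1 z fun e => k (h e)

theorem rs_ZP (hK : IsClosed K) (h : K ⊆ F.V i) (hu : u ∈ Sp N (F.p ⁻¹' K)) {y : B × M}
    (hy : y.1 ∈ F.V i → u ∈ ZP (F.s i y)) : F.rs i u ∈ ZP y := by
  by_cases k : y.1 ∈ F.V i
  · refine ((ov (b + m) (F.P i)).pb_ZP_iff (x := ⟨y, k⟩)).1 ?_
    rw [(F.rs_spec hK h hu).2]
    exact pb_ZP _ (hy k)
  · exact (F.rs_spec hK h hu).1 y fun e => k (h e)

variable [T2Space B]

theorem ac_P (hU : U ⊆ F.V i) (hw : w ∈ Ac (b + m) (Prod.fst ⁻¹' U)) :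
    ∃ K, IsClosed K ∧ K ⊆ F.V i ∧ w ∈ Sp (b + m) (Prod.fst ⁻¹' K) :=
  let ⟨_, h1, h2, h3⟩ := hw
  ⟨_, (h1.image continuous_fst).isClosed, (image_subset_iff.2 h2).trans hU,
    Sp_mono (subset_preimage_image _ _) h3⟩

theorem ac_O (hU : U ⊆ F.V i) (hu : u ∈ Ac N (F.p ⁻¹' U)) :
    ∃ K, IsClosed K ∧ K ⊆ F.V i ∧ u ∈ Sp N (F.p ⁻¹' K) :=
  let ⟨_, h1, h2, h3⟩ := hu
  ⟨_, (h1.image F.smp.cont).isClosed, (image_subset_iff.2 h2).trans hU,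
    Sp_mono (subset_preimage_image _ _) h3⟩

theorem ex_Ac (hU : U ⊆ F.V i) (hw : w ∈ Ac (b + m) (U ×ˢ W)) :
    F.ex i w ∈ Ac N (F.p ⁻¹' U ∩ F.q i ⁻¹' W) := by
  obtain ⟨K, k1, k2, k3⟩ := F.ac_P hU (Ac_mono (prod_subset_preimage_fst _ _) hw)
  obtain ⟨L, h1, h2, h3⟩ := hw
  refine ⟨F.s i '' L, h1.image_of_continuousOn fun y hy =>
    (F.sms i y (hU (h2 hy).1)).cont.continuousWithinAt, ?_,
    fun z hz => F.ex_ZP k1 k2 k3 fun k => h3 _ fun e => hz ⟨_, e, F.spq i z k⟩⟩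
  rintro _ ⟨y, hy, rfl⟩
  rw [mem_inter_iff, mem_preimage, mem_preimage, F.ps i y (hU (h2 hy).1), F.qs i y (hU (h2 hy).1)]
  exact h2 hy

theorem rs_Ac (hU : U ⊆ F.V i) (hu : u ∈ Ac N (F.p ⁻¹' U ∩ F.q i ⁻¹' W)) :
    F.rs i u ∈ Ac (b + m) (U ×ˢ W) := by
  obtain ⟨K, k1, k2, k3⟩ := F.ac_O hU (Ac_mono inter_subset_left hu)
  obtain ⟨L, h1, h2, h3⟩ := hu
  refine ⟨(fun z => (F.p z, F.q i z)) '' L, h1.image_of_continuousOn fun y hy =>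
    (F.smp.cont.continuousAt.prodMk (F.smq i y (hU (h2 hy).1)).cont).continuousWithinAt, ?_,
    fun y hy => F.rs_ZP k1 k2 k3 fun k => h3 _ fun e =>
      hy ⟨_, e, Prod.ext (F.ps i y k) (F.qs i y k)⟩⟩
  rintro _ ⟨y, hy, rfl⟩
  exact h2 hy

theorem rs_Ac' (hU : U ⊆ F.V i) (hu : u ∈ Ac N (F.p ⁻¹' U)) :
    F.rs i u ∈ Ac (b + m) (U ×ˢ (univ : Set M)) :=
  F.rs_Ac hU (by rwa [preimage_univ, inter_univ])

theorem ex_Ac' (hU : U ⊆ F.V i) (hw : w ∈ Ac (b + m) (U ×ˢ W)) : F.ex i w ∈ Ac N (F.p ⁻¹' U) :=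
  Ac_mono inter_subset_left (F.ex_Ac hU hw)

theorem rs_ex' (hU : U ⊆ F.V i) (hw : w ∈ Ac (b + m) (U ×ˢ W)) : F.rs i (F.ex i w) = w :=
  let ⟨_, k1, k2, k3⟩ := F.ac_P hU (Ac_mono (prod_subset_preimage_fst _ _) hw)
  F.rs_ex k1 k2 k3

theorem ex_rs' (hU : U ⊆ F.V i) (hu : u ∈ Ac N (F.p ⁻¹' U)) : F.ex i (F.rs i u) = u :=
  let ⟨_, k1, k2, k3⟩ := F.ac_O hU hu
  F.ex_rs k1 k2 k3

theorem ex_dd' (hU : U ⊆ F.V i) (hw : w ∈ Ac (b + m) (U ×ˢ W)) :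
    F.ex i (dd _ _ w) = dd N T (F.ex i w) :=
  let ⟨_, k1, k2, k3⟩ := F.ac_P hU (Ac_mono (prod_subset_preimage_fst _ _) hw)
  F.ex_dd k1 k2 k3

theorem ex_pj' (hU : U ⊆ F.V i) (hw : w ∈ Ac (b + m) (U ×ˢ W)) (k : ℤ) :
    F.ex i (pj _ _ k w) = pj N T k (F.ex i w) :=
  let ⟨_, k1, k2, k3⟩ := F.ac_P hU (Ac_mono (prod_subset_preimage_fst _ _) hw)
  F.ex_pj k1 k2 k3 k

theorem cr_P (ha : a ∈ Ac b (F.V i)) (x : SF m M) : ∃ K, IsClosed K ∧ K ⊆ F.V i ∧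
    cr b m B M a x ∈ Sp (b + m) (Prod.fst ⁻¹' K) :=
  let ⟨K, h1, h2, h3⟩ := ha
  ⟨K, h1.isClosed, h2, fun z hz => wd_ZP_left (pb_ZP smo_fst (h3 z.1 hz)) _⟩

theorem pair_cr {e : ℕ} {S : Type} [TopologicalSpace S] [ChartedSpace (Cm e) S]
    [IsManifold 𝓘(ℂ, Cm e) ω S] {k₁ : S → B} {k₂ : S → M} (h₁ : Smo e b k₁) (h₂ : Smo e m k₂)
    (a : SF b B) (x : SF m M) :
    pb (smo_pair h₁ h₂) (cr b m B M a x) = wd (pb h₁ a) (pb h₂ x) := by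
  rw [cr_apply, pb_wd, pb_pb (smo_pair h₁ h₂) smo_fst h₁ fun _ => rfl,
    pb_pb (smo_pair h₁ h₂) smo_snd h₂ fun _ => rfl]

theorem pq_cr (i : F.ι) (a : SF b B) (x : SF m M) :
    pb (F.smpq i) (cr b m B M a x) = wd (pb (F.smp' i) a) (pb (F.smq' i) x) := pair_cr _ _ a x

/-- the restriction to the chart -/
theorem kp_val (ha : a ∈ Ac b (F.V i)) (x : SF m M) :
    pb (ov N (F.O i)).smo (F.kp i a x) = wd (pb (F.smp' i) a) (pb (F.smq' i) x) :=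
  let ⟨_, k1, k2, k3⟩ := F.cr_P ha x
  (F.ex_spec k1 k2 k3).2.trans (F.pq_cr i a x)

/-- (k0) -/
theorem kp_ZP (ha : a ∈ Ac b (F.V i)) {z : T}
    (h : F.p z ∈ F.V i → a ∈ ZP (F.p z) ∨ x ∈ ZP (F.q i z)) : F.kp i a x ∈ ZP z :=
  let ⟨_, k1, k2, k3⟩ := F.cr_P ha x
  F.ex_ZP k1 k2 k3 fun k => (h k).elim (fun e => wd_ZP_left (pb_ZP smo_fst e) _)
    fun e => op_ZP (opr_vl (cov_wg _)) (pb_ZP smo_snd e)

theorem kp_off (ha : a ∈ Ac b (F.V i)) (x : SF m M) {z : T} (h : F.p z ∉ F.V i) :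
    F.kp i a x ∈ ZP z := F.kp_ZP ha fun k => absurd k h

theorem kp_Sp (ha : a ∈ Ac b (F.V i)) (hK : a ∈ Sp b K) (x : SF m M) :
    F.kp i a x ∈ Sp N (F.p ⁻¹' K) := fun _ hz => F.kp_ZP ha fun _ => Or.inl (hK _ hz)

/-- the characterisation -/
theorem kp_eq (h : ∀ z, F.p z ∉ F.V i → u ∈ ZP z)
    (e : pb (ov N (F.O i)).smo u = wd (pb (F.smp' i) a) (pb (F.smq' i) x)) : F.kp i a x = u :=
  px_eq _ h (e.trans (F.pq_cr i a x).symm)

/-- pull-back by a map with values in the chart -/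
theorem kp_pb {e : ℕ} {S : Type} [TopologicalSpace S] [ChartedSpace (Cm e) S]
    [IsManifold 𝓘(ℂ, Cm e) ω S] (ha : a ∈ Ac b (F.V i)) (x : SF m M) {k : S → T} {k₁ : S → B}
    {k₂ : S → M} (hk : Smo e N k) (h₁ : Smo e b k₁) (h₂ : Smo e m k₂) (h : ∀ s, F.p (k s) ∈ F.V i)
    (e₁ : ∀ s, F.p (k s) = k₁ s) (e₂ : ∀ s, F.q i (k s) = k₂ s) :
    pb hk (F.kp i a x) = wd (pb h₁ a) (pb h₂ x) :=
  let ⟨_, k1, k2, k3⟩ := F.cr_P ha x
  (pb_via (F.ex_spec k1 k2 k3).2 hk (smo_pair h₁ h₂) h fun s => Prod.ext (e₁ s) (e₂ s)).trans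
    (pair_cr h₁ h₂ a x)

/-- (k1) -/
theorem kp_Ac (hU : U ⊆ F.V i) (ha : a ∈ Ac b U) (hx : x ∈ Ac m W) :
    F.kp i a x ∈ Ac N (F.p ⁻¹' U ∩ F.q i ⁻¹' W) := F.ex_Ac hU (cr_Ac ha hx)

theorem kp_Ac' (hU : U ⊆ F.V i) (ha : a ∈ Ac b U) (hx : x ∈ Ac m W) :
    F.kp i a x ∈ Ac N (F.p ⁻¹' U) := F.ex_Ac' hU (cr_Ac ha hx)

theorem kp_univ (ha : a ∈ Ac b (F.V i)) (hx : x ∈ Ac m W) : F.kp i a x ∈ Ac N univ :=
  Ac_mono (subset_univ _) (F.kp_Ac' subset_rfl ha hx)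

/-- (k2) -/
theorem kp_dd (ha : a ∈ Ac b (F.V i)) (x : SF m M) :
    dd N T (F.kp i a x) = F.kp i (dd b B a) x + F.kp i (pr b B a) (dd m M x) := by
  obtain ⟨_, k1, k2, k3⟩ := F.cr_P ha x
  rw [kp_apply, ← F.ex_dd k1 k2 k3, cr_dd, map_add]
  rfl

/-- (k3) -/
theorem kp_tr (ha : a ∈ Ac b (F.V i ∩ F.V j)) (x : SF m M) :
    F.kp j a x = F.kp i a (pb (F.smt i j) x) := by
  have hi := Ac_mono inter_subset_left ha
  have hj := Ac_mono inter_subset_right ha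
  obtain ⟨K, -, k2, k3⟩ := ha
  have h1 : Smo N b fun z : ↥(F.O i ⊓ F.O j) => F.p z := smo_on fun _ _ => smA_of F.smp _
  have h2 : Smo N m fun z : ↥(F.O i ⊓ F.O j) => F.q i z := smo_on fun z hz => F.smq i z hz.1
  refine ext_loc (F.O i ⊓ F.O j) ?_ (fun z hz => F.kp_Sp hj k3 _ z fun k => hz (k2 k))
    fun z hz => F.kp_Sp hi k3 _ z fun k => hz (k2 k)
  rw [F.kp_pb hj x _ h1 (smo_comp h2 (F.smt i j)) (fun s => s.2.2) (fun _ => rfl)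
      fun s => F.tr i j s s.2.1 s.2.2,
    F.kp_pb hi _ _ h1 h2 (fun s => s.2.1) (fun _ => rfl) fun _ => rfl, pb_comp h2 (F.smt i j)]

/-- (k4) -/
theorem kp_Dg {k l : ℤ} (ha : a ∈ Ac b (F.V i)) (h1 : a ∈ Dg b B k) (h2 : x ∈ Dg m M l) :
    F.kp i a x ∈ Dg N T (k + l) := by
  obtain ⟨_, k1, k2, k3⟩ := F.cr_P ha x
  rw [mem_Dg_iff, kp_apply, ← F.ex_pj k1 k2 k3, pj_eq (cr_Dg h1 h2)]

theorem kp_Am {k l : ℤ} (hU : U ⊆ F.V i) (ha : a ∈ Am b k U) (hx : x ∈ Am m l W) :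
    F.kp i a x ∈ Am N (k + l) (F.p ⁻¹' U) :=
  ⟨F.kp_Ac' hU ha.1 hx.1, F.kp_Dg (Ac_mono hU ha.1) ha.2 hx.2⟩

end Fl

end Vale.Agent.P275FL
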