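import Vale.Agent.P275FL.Geo
import Vale.Agent.P275KU.Fn

/-!
# P275, flat bundles: the rules for the products of forms
-/

set_option linter.unusedSectionVars false

open scoped Manifold ContDiff Topology
open Set Filter TopologicalSpace
open Vale.Agent.P272.K Vale.Agent.P272.K.Prod Vale.Agent.P281Z.Hg Vale.Agent.P275MC
  Vale.Agent.P275KU Vale.Agent.P281Z.Hg.G2H Vale.Agent.P281Z.Hg.Pb1H

noncomputable section

namespace Vale.Agent.P275FL

theorem pr_wd {d : ℕ} {X : Type} [TopologicalSpace X] [ChartedSpace (Cm d) X] (u v : SF d X) :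
    pr d X (wd u v) = wd (pr d X u) (pr d X v) := by
  have h : ∀ j k : ℕ, pr d X (wd (pj d X j u) (pj d X k v)) =
      wd (pr d X (pj d X j u)) (pr d X (pj d X k v)) := fun j k => by
    rw [pr_Dg (wd_Dg (pj_mem _ u) (pj_mem _ v)), pr_Dg (pj_mem _ u), pr_Dg (pj_mem _ v), wd_smul,
      map_smul, smul_smul, Int.negOnePow_add, Units.val_mul, Int.cast_mul]
  rw [← pj_sum u, ← pj_sum v]
  simp only [wd_sum, map_sum, h]

section zp

variable {d : ℕ} {X : Type} [TopologicalSpace X] [ChartedSpace (Cm d) X] {u : SF d X} {x : X}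

theorem wd_ZP (y : SF d X) (h : u ∈ ZP x) : wd y u ∈ ZP x := op_ZP (opr_vl _) h

theorem pr_ZP (h : u ∈ ZP x) : pr d X u ∈ ZP x := op_ZP (opr_vl _) h

theorem mu_ZP' {ρ : X → ℝ} (hρ : SmoothFn (n := d) ρ) (h : u ∈ ZP x) : mu hρ u ∈ ZP x :=
  op_ZP (opr_vl _) h

theorem pr_pr₀ (u : SF d X) : pr d X (pr d X u) = u := by
  have h : ∀ j : ℕ, pr d X (pr d X (pj d X j u)) = pj d X j u := fun j => by
    rw [pr_Dg (pj_mem _ u), map_smul, pr_Dg (pj_mem _ u), smul_smul, ← Int.cast_mul,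
      ← Units.val_mul, ← Int.negOnePow_add, Int.negOnePow_even _ ⟨j, rfl⟩, Units.val_one,
      Int.cast_one, one_smul]
  rw [← pj_sum u]
  simp only [map_sum, h]

end zp

namespace Fl

variable {N b m : ℕ} {T B M : Type} [TopologicalSpace T] [ChartedSpace (Cm N) T]
  [IsManifold 𝓘(ℂ, Cm N) ω T] [TopologicalSpace B] [ChartedSpace (Cm b) B]
  [IsManifold 𝓘(ℂ, Cm b) ω B] [TopologicalSpace M] [ChartedSpace (Cm m) M]
  [IsManifold 𝓘(ℂ, Cm m) ω M] [T2Space B] (F : Fl N b m T B M) {i j : F.ι} {a : SF b B}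
  {x : SF m M}

theorem val_p (i : F.ι) (y : SF b B) :
    pb (ov N (F.O i)).smo (pb F.smp y) = pb (F.smp' i) y := pb_pb _ _ _ (fun _ => rfl) y

theorem kp_pr (ha : a ∈ Ac b (F.V i)) (x : SF m M) :
    pr N T (F.kp i a x) = F.kp i (pr b B a) (pr m M x) :=
  (F.kp_eq (fun _ hz => pr_ZP (F.kp_off ha x hz))
    (by rw [pb_pr, F.kp_val ha, pr_wd, pb_pr, pb_pr])).symm

/-- (k5) -/
theorem wd_kp (ha : a ∈ Ac b (F.V i)) (y : SF b B) (x : SF m M) :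
    wd (pb F.smp y) (F.kp i a x) = F.kp i (wd y a) x :=
  (F.kp_eq (fun _ hz => wd_ZP _ (F.kp_off ha x hz))
    (by rw [pb_wd, F.kp_val ha, val_p, pb_wd, wd_wd])).symm

theorem mu_kp (ha : a ∈ Ac b (F.V i)) {ρ : B → ℝ} (hρ : SmoothFn (n := b) ρ)
    (hρ' : SmoothFn (n := N) fun z => ρ (F.p z)) (x : SF m M) :
    mu hρ' (F.kp i a x) = F.kp i (mu hρ a) x :=
  (F.kp_eq (fun _ hz => mu_ZP' hρ' (F.kp_off ha x hz)) (by
    rw [pb_mu _ hρ' (smoothFn_comp (F.smp' i) hρ), F.kp_val ha,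
      pb_mu _ hρ (smoothFn_comp (F.smp' i) hρ), wd_mu])).symm

/-- (k5r), even case -/
theorem kp_wd_even (ha : a ∈ Ac b (F.V i)) {y : SF b B} (hy : pr b B y = y) (x : SF m M) :
    wd (F.kp i a x) (pb F.smp y) = F.kp i (wd a y) x :=
  (F.kp_eq (fun _ hz => wd_ZP_left (F.kp_off ha x hz) _) (by
    have := wd_even (u := pb (F.smp' i) y) (by rw [← pb_pr, hy]) (pb (F.smq' i) x) (one _ _)
    rw [wd_one, wd_one] at this
    rw [pb_wd, F.kp_val ha, val_p, pb_wd, wd_wd, wd_wd, this])).symm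

/-- (k5r), odd case -/
theorem kp_wd_odd (ha : a ∈ Ac b (F.V i)) {y : SF b B} (hy : pr b B y = -y) (x : SF m M) :
    wd (F.kp i a x) (pb F.smp y) = F.kp i (wd a y) (pr m M x) :=
  (F.kp_eq (fun _ hz => wd_ZP_left (F.kp_off ha x hz) _) (by
    have := wd_odd (u := pb (F.smp' i) y) (by rw [← pb_pr, hy, map_neg])
      (pb (F.smq' i) (pr m M x)) (one _ _)
    rw [wd_one, wd_one, ← pb_pr, pr_pr₀] at this
    rw [pb_wd, F.kp_val ha, val_p, pb_wd, wd_wd, wd_wd, this])).symm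

section hyp

variable {e : ℕ} {P : Type} [TopologicalSpace P] [ChartedSpace (Cm e) P]
  [IsManifold 𝓘(ℂ, Cm e) ω P] {h : T → P} {h₀ : M → P} (hh : Smo N e h) (hh₀ : Smo m e h₀)
  (k : ∀ z, F.p z ∈ F.V i → h z = h₀ (F.q i z)) {w : SF e P}
include k

theorem val_h (w : SF e P) : pb (ov N (F.O i)).smo (pb hh w) = pb (F.smq' i) (pb hh₀ w) :=
  (pb_pb _ _ (smo_comp (F.smq' i) hh₀) (fun z => k z z.2) w).trans (pb_comp _ _ w)

/-- (k6), even case -/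
theorem hyp_even (ha : a ∈ Ac b (F.V i)) (hw : pr e P w = w) (x : SF m M) :
    wd (pb hh w) (F.kp i a x) = F.kp i a (wd (pb hh₀ w) x) :=
  (F.kp_eq (fun _ hz => wd_ZP _ (F.kp_off ha x hz)) (by
    rw [pb_wd, F.kp_val ha, F.val_h hh hh₀ k, pb_wd,
      wd_even (by rw [← pb_pr, ← pb_pr, hw])])).symm

/-- (k6), odd case -/
theorem hyp_odd (ha : a ∈ Ac b (F.V i)) (hw : pr e P w = -w) (x : SF m M) :
    wd (pb hh w) (F.kp i a x) = F.kp i (pr b B a) (wd (pb hh₀ w) x) :=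
  (F.kp_eq (fun _ hz => wd_ZP _ (F.kp_off ha x hz)) (by
    rw [pb_wd, F.kp_val ha, F.val_h hh hh₀ k, pb_wd,
      wd_odd (by rw [← pb_pr, ← pb_pr, hw, map_neg, map_neg]), pb_pr])).symm

/-- multiplication on the right -/
theorem hyp_right (ha : a ∈ Ac b (F.V i)) (w : SF e P) (x : SF m M) :
    wd (F.kp i a x) (pb hh w) = F.kp i a (wd x (pb hh₀ w)) :=
  (F.kp_eq (fun _ hz => wd_ZP_left (F.kp_off ha x hz) _) (by
    rw [pb_wd, F.kp_val ha, F.val_h hh hh₀ k, pb_wd, wd_wd])).symm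

end hyp

/-- a form which is read in the chart as a form on the fibre -/
theorem wd_fib (ha : a ∈ Ac b (F.V i)) {y : SF N T} {y₀ : SF m M}
    (h : pb (ov N (F.O i)).smo y = pb (F.smq' i) y₀) (hy : pr m M y₀ = y₀) (x : SF m M) :
    wd y (F.kp i a x) = F.kp i a (wd y₀ x) :=
  (F.kp_eq (fun _ hz => wd_ZP _ (F.kp_off ha x hz)) (by
    rw [pb_wd, F.kp_val ha, h, pb_wd, wd_even (by rw [← pb_pr, hy])])).symm

variable {N' b' m' : ℕ} {T' B' M' : Type} [TopologicalSpace T'] [ChartedSpace (Cm N') T']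
  [IsManifold 𝓘(ℂ, Cm N') ω T'] [TopologicalSpace B'] [ChartedSpace (Cm b') B']
  [IsManifold 𝓘(ℂ, Cm b') ω B'] [TopologicalSpace M'] [ChartedSpace (Cm m') M']
  [IsManifold 𝓘(ℂ, Cm m') ω M'] [T2Space B'] (F' : Fl N' b' m' T' B' M') {i' : F'.ι} {f : T' → T}
  {g : B' → B} {φ : M' → M}

/-- (k7) with a form `y` on the base instead of a function -/
theorem wd_pb_kp (hf : Smo N' N f) (hg : Smo b' b g) (hφ : Smo m' m φ)
    (e : ∀ z, F.p (f z) = g (F'.p z)) (o : F.Ov F' f g i' i φ) (ha : a ∈ Ac b (F.V i))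
    {y : SF b' B'} (hy : y ∈ Ac b' (F'.V i')) (x : SF m M) :
    wd (pb F'.smp y) (pb hf (F.kp i a x)) = F'.kp i' (wd y (pb hg a)) (pb hφ x) := by
  let O : Opens T' := F'.O i' ⊓ ⟨f ⁻¹' F.O i, (F.O i).isOpen.preimage hf.cont⟩
  have h1 : Smo N' b' fun z : O => F'.p z := smo_on fun _ _ => smA_of F'.smp _
  have h2 : Smo N' m' fun z : O => F'.q i' z := smo_on fun z hz => F'.smq i' z hz.1
  have h3 := wd_Ac_left hy (pb hg a)
  obtain ⟨K, -, k2, k3⟩ := id ha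
  obtain ⟨L, -, l2, l3⟩ := id hy
  refine ext_loc O ?_ (fun z hz => ?_) fun z hz => F'.kp_ZP h3 fun k => Or.inl ?_
  · rw [pb_wd, pb_pb _ F'.smp h1 fun _ => rfl, ← pb_comp _ hf,
      F.kp_pb ha x _ (smo_comp h1 hg) (smo_comp h2 hφ) (fun s => s.2.2) (fun s => e s)
        fun s => o s s.2.1 (e s ▸ s.2.2),
      F'.kp_pb h3 _ _ h1 h2 (fun s => s.2.1) (fun _ => rfl) fun _ => rfl, pb_wd, pb_comp h1 hg,
      pb_comp h2 hφ, wd_wd]
  · by_cases k : F'.p z ∈ F'.V i'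
    · exact op_ZP (opr_vl _) (pb_ZP hf (F.kp_off ha x fun k' => hz ⟨k, k'⟩))
    · exact wd_ZP_left (pb_ZP _ (l3 _ fun k' => k (l2 k'))) _
  · exact op_ZP (opr_vl _) (pb_ZP hg (k3 _ fun k' => hz ⟨k, show F.p _ ∈ _ from e z ▸ k2 k'⟩))

theorem mu_eq_wd {d : ℕ} {X : Type} [TopologicalSpace X] [ChartedSpace (Cm d) X] {ρ : X → ℝ}
    (hρ : SmoothFn (n := d) ρ) (u : SF d X) : mu hρ u = wd (mu hρ (one d X)) u := by
  rw [wd_mu, one_wd]

/-- (k7) -/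
theorem mu_pb_kp (hf : Smo N' N f) (hg : Smo b' b g) (hφ : Smo m' m φ)
    (e : ∀ z, F.p (f z) = g (F'.p z)) (o : F.Ov F' f g i' i φ) (ha : a ∈ Ac b (F.V i))
    {ρ : B' → ℝ} (hρ : SmoothFn (n := b') ρ) (hρ' : SmoothFn (n := N') fun z => ρ (F'.p z))
    (h1 : HasCompactSupport ρ) (h2 : tsupport ρ ⊆ F'.V i') (x : SF m M) :
    mu hρ' (pb hf (F.kp i a x)) = F'.kp i' (mu hρ (pb hg a)) (pb hφ x) := by
  rw [mu_eq_wd hρ, ← F.wd_pb_kp F' hf hg hφ e o ha (mu_mem_Ac hρ h1 h2 _), pb_mu _ hρ hρ', pb_one,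
    ← mu_eq_wd]

/-- (k7) when the pull-back of `a` lives in one chart -/
theorem pb_kp (hf : Smo N' N f) (hg : Smo b' b g) (hφ : Smo m' m φ)
    (e : ∀ z, F.p (f z) = g (F'.p z)) (o : F.Ov F' f g i' i φ) (ha : a ∈ Ac b (F.V i))
    (ha' : pb hg a ∈ Ac b' (F'.V i')) (h : ∀ y, g y ∈ F.V i → y ∈ F'.V i') (x : SF m M) :
    pb hf (F.kp i a x) = F'.kp i' (pb hg a) (pb hφ x) := by
  let O : Opens T' := ⟨f ⁻¹' F.O i, (F.O i).isOpen.preimage hf.cont⟩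
  have h0 : ∀ z ∈ O, F'.p z ∈ F'.V i' := fun z hz => h _ (e z ▸ hz)
  have h1 : Smo N' b' fun z : O => F'.p z := smo_on fun _ _ => smA_of F'.smp _
  have h2 : Smo N' m' fun z : O => F'.q i' z := smo_on fun z hz => F'.smq i' z (h0 z hz)
  obtain ⟨K, -, k2, k3⟩ := id ha
  refine ext_loc O ?_ (fun z hz => pb_ZP hf (F.kp_off ha x hz)) fun z hz =>
    F'.kp_ZP ha' fun _ => Or.inl (pb_ZP hg (k3 _ fun k' => hz (show F.p _ ∈ _ from e z ▸ k2 k')))
  rw [← pb_comp _ hf, F.kp_pb ha x _ (smo_comp h1 hg) (smo_comp h2 hφ) (fun s => s.2) (fun s => e s)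
      fun s => o s (h0 s s.2) (e s ▸ s.2),
    F'.kp_pb ha' _ _ h1 h2 (fun s => h0 s s.2) (fun _ => rfl) fun _ => rfl, pb_comp h1 hg,
    pb_comp h2 hφ]

/-- a map to a manifold: the product with a form `y` on the base -/
theorem kp_const {e : ℕ} {P : Type} [TopologicalSpace P] [ChartedSpace (Cm e) P]
    [IsManifold 𝓘(ℂ, Cm e) ω P] {h : T → P} {h₀ : M → P} (hh : Smo N e h) (hh₀ : Smo m e h₀)
    (k : ∀ z, F.p z ∈ F.V i → h z = h₀ (F.q i z)) (ha : a ∈ Ac b (F.V i)) (w : SF e P) :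
    wd (pb F.smp a) (pb hh w) = F.kp i a (pb hh₀ w) :=
  let ⟨_, _, k2, k3⟩ := id ha
  (F.kp_eq (fun _ hz => wd_ZP_left (pb_ZP _ (k3 _ fun k' => hz (k2 k'))) _)
    (by rw [pb_wd, val_p, F.val_h hh hh₀ k])).symm

end Fl

end Vale.Agent.P275FL
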