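import Vale.Agent.P275FL.Tri

/-!
# P275, flat bundles: flat sections, maps over a map of the bases
-/

set_option linter.unusedSectionVars false

open scoped Manifold ContDiff Topology TensorProduct
open Set
open Vale.Agent.P272.K Vale.Agent.P281Z.Hg Vale.Agent.P275MC Vale.Agent.P275FM
open Vale.Agent.P275SM (Str Qs)

noncomputable section

namespace Vale.Agent.P275FL

variable {b : ℕ} {B : Type} [TopologicalSpace B] [ChartedSpace (Cm b) B] [T2Space B]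
  [IsManifold 𝓘(ℂ, Cm b) ω B] {c : Cov B}
  {F F' F₁ F₁' Z Z' W : Type*} [AddCommGroup F] [Module ℂ F] [AddCommGroup F'] [Module ℂ F']
  [AddCommGroup F₁] [Module ℂ F₁] [AddCommGroup F₁'] [Module ℂ F₁'] [AddCommGroup Z] [Module ℂ Z]
  [AddCommGroup Z'] [Module ℂ Z'] [AddCommGroup W] [Module ℂ W] {O O' : Set B} {a : SF b B}

theorem Cov.ext (c : Cov B) (hO : IsOpen O) {f g : SF b B →ₗ[ℂ] W}
    (h : ∀ i, ∀ a ∈ Ac b (c.V i ∩ O), f a = g a) (ha : a ∈ Ac b O) : f a = g a := by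
  obtain ⟨P, hP⟩ := ex_PU1 (V := fun i => c.V i ∩ O) (fun i => (c.opn i).inter hO)
    (Ac_mono (fun y hy => let ⟨i, hi⟩ := c.cov y; mem_iUnion.2 ⟨i, mem_inter hi hy⟩) ha)
  rw [← hP, map_sum, map_sum]
  exact Finset.sum_congr rfl fun j _ => h _ _ (P.mem j a)

namespace Sy

variable (S : Sy c F)

/-- families of sections which are flat over `O` -/
def Flat (O : Set B) (φ : c.ι → Z →ₗ[ℂ] F) : Prop :=
  ∀ i j y, y ∈ O → y ∈ c.V i → y ∈ c.V j → ∀ x, S.τ i j (φ j x) = φ i x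

theorem ex_gl (O : Set B) (φ : c.ι → Z →ₗ[ℂ] F) : ∃ T : SF b B →ₗ[ℂ] Z →ₗ[ℂ] Q b S, IsOpen O →
    S.Flat O φ → ∀ i, ∀ a ∈ Ac b (c.V i ∩ O), ∀ x, T a x = S.gn i a (φ i x) := by
  by_cases h : IsOpen O ∧ S.Flat O φ
  swap
  · exact ⟨0, fun h1 h2 => (h ⟨h1, h2⟩).elim⟩
  obtain ⟨T, hT⟩ := glue0 (V := fun i => c.V i ∩ O) (fun i => (c.opn i).inter h.1)
    (fun i => (S.gn (b := b) i).compl₂ (φ i)) fun i j a hi hj => LinearMap.ext fun x => by
      have k := Ac_inter hi hj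
      rcases zero_or k with rfl | ⟨y, hy⟩
      · simp only [map_zero]
      · rw [LinearMap.compl₂_apply, LinearMap.compl₂_apply,
          S.gn_tr (Ac_mono (inter_subset_inter inter_subset_left inter_subset_left) k),
          h.2 i j y hy.1.2 hy.1.1 hy.2.1]
  exact ⟨T, fun _ _ i a ha x => LinearMap.congr_fun (hT i a ha) x⟩

/-- a form times a flat section -/
def gl (O : Set B) (φ : c.ι → Z →ₗ[ℂ] F) : SF b B →ₗ[ℂ] Z →ₗ[ℂ] Q b S := (S.ex_gl O φ).choose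

variable {S} {S' : Sy c F'} {φ : c.ι → Z →ₗ[ℂ] F} {φ' : c.ι → Z' →ₗ[ℂ] F} {f : c.ι → F →ₗ[ℂ] F'}
  {L : Module.End ℂ (SF b B)} {i : c.ι}

theorem gl_gn (hO : IsOpen O) (h : S.Flat O φ) (ha : a ∈ Ac b (c.V i ∩ O)) (x : Z) :
    S.gl O φ a x = S.gn i a (φ i x) := (S.ex_gl O φ).choose_spec hO h i a ha x

theorem Flat.map (h : S.Flat O φ) (hf : S.Eqv S' f) : S'.Flat O fun i => f i ∘ₗ φ i :=
  fun i j y h0 h1 h2 x => (hf i j y h1 h2 _).trans (congrArg (f i) (h i j y h0 h1 h2 x))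

theorem Flat.comp (h : S.Flat O φ) (g : Z' →ₗ[ℂ] Z) : S.Flat O fun i => φ i ∘ₗ g :=
  fun i j y h0 h1 h2 _ => h i j y h0 h1 h2 _

theorem map_gl (hL : Loc L) (hf : S.Eqv S' f) (hO : IsOpen O) (h : S.Flat O φ) (ha : a ∈ Ac b O)
    (x : Z) : S.map S' L f (S.gl O φ a x) = S'.gl O (fun i => f i ∘ₗ φ i) (L a) x :=
  c.ext hO (f := S.map S' L f ∘ₗ (S.gl O φ).flip x)
    (g := (S'.gl O fun i => f i ∘ₗ φ i).flip x ∘ₗ L) (fun i a ha => by
      simp only [LinearMap.comp_apply, LinearMap.flip_apply]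
      rw [gl_gn hO h ha, gl_gn hO (h.map hf) (hL ha), map_gn hL hf (Ac_mono inter_subset_left ha)]
      rfl) ha

theorem gl_congr (hO : IsOpen O) (hO' : IsOpen O') (h : S.Flat O φ) (h' : S.Flat O' φ')
    (ha : a ∈ Ac b (O ∩ O')) {x : Z} {x' : Z'}
    (e : ∀ i y, y ∈ c.V i → y ∈ O → y ∈ O' → φ i x = φ' i x') :
    S.gl O φ a x = S.gl O' φ' a x' :=
  c.ext (hO.inter hO') (f := (S.gl O φ).flip x) (g := (S.gl O' φ').flip x') (fun i a ha => by
    simp only [LinearMap.flip_apply]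
    rcases zero_or ha with rfl | ⟨y, hy⟩
    · simp only [map_zero, LinearMap.zero_apply]
    · rw [gl_gn hO h (Ac_mono (inter_subset_inter_right _ inter_subset_left) ha),
        gl_gn hO' h' (Ac_mono (inter_subset_inter_right _ inter_subset_right) ha),
        e i y hy.1 hy.2.1 hy.2.2]) ha

theorem map_gl' (hL : Loc L) {g : c.ι → F →ₗ[ℂ] F} (hf : S.Eqv S g) (hO : IsOpen O)
    (h : S.Flat O φ) (ha : a ∈ Ac b O) {x x' : Z}
    (e : ∀ i y, y ∈ c.V i → y ∈ O → g i (φ i x) = φ i x') :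
    S.map S L g (S.gl O φ a x) = S.gl O φ (L a) x' := by
  rw [map_gl hL hf hO h ha]
  exact gl_congr hO hO (h.map hf) h ((inter_self O).symm ▸ hL ha) fun i y h1 h2 _ => e i y h1 h2

theorem mu_gl (hL : In c i L) (hO : IsOpen O) (h : S.Flat O φ) (ha : a ∈ Ac b O) (x : Z) :
    S.map S L (fun _ => LinearMap.id) (S.gl O φ a x) = S.gn i (L a) (φ i x) := by
  rw [map_gl' hL.loc Eqv.id hO h ha fun _ _ _ _ => rfl, gl_gn hO h (hL ha)]

theorem Dq_gl {D : Module.End ℂ F} (hD : S.Eqv S fun _ => D) (hO : IsOpen O) (h : S.Flat O φ)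
    (ha : a ∈ Ac b O) {x x' : Z} (e : ∀ i y, y ∈ c.V i → y ∈ O → D (φ i x) = φ i x') :
    S.Dq b D (S.gl O φ a x) = S.gl O φ (dd b B a) x + S.gl O φ (pr b B a) x' := by
  rw [Dq, LinearMap.add_apply, map_gl' loc_dd Eqv.id hO h ha fun _ _ _ _ => rfl,
    map_gl' loc_pr hD hO h ha e]

variable {X : Tri F} {X' : Tri F'} {Y : Tri Z} {ε α : ℂ} {s : ℕ}

/-- a closed form times flat sections -/
theorem sm_gl (hX : S.Tr X) (hO : IsOpen O) (h : S.Flat O φ) (ha : a ∈ Ac b O)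
    (h1 : pr b B a = α • a) (h2 : dd b B a = 0)
    (k : ∀ i y, y ∈ c.V i → y ∈ O → SM ε s Y X (φ i)) :
    SM (α * ε) s Y (S.tri b X) (S.gl O φ a) where
  A x := (map_gl' loc_pr hX.eA hO h ha (x' := ε • Y.A x) fun i y h1 h2 => by
    rw [(k i y h1 h2).A, map_smul]).trans (by
      rw [h1, map_smul, map_smul, LinearMap.smul_apply, smul_smul, mul_comm])
  B x := (map_gl' loc_pr hX.eB hO h ha (x' := ε • Y.B x) fun i y h1 h2 => by
    rw [(k i y h1 h2).B, map_smul]).trans (by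
      rw [h1, map_smul, map_smul, LinearMap.smul_apply, smul_smul, mul_comm])
  δ x := (Dq_gl hX.eδ hO h ha (x' := ε • Y.δ x) fun i y h1 h2 => by
    rw [(k i y h1 h2).δ, map_smul]).trans (by
      rw [h1, h2, map_zero, LinearMap.zero_apply, zero_add, map_smul, map_smul,
        LinearMap.smul_apply, smul_smul, mul_comm])
  dg q _ := map_gl' Loc.one (hX.edg _) hO h ha fun i y h1 h2 => (k i y h1 h2).dg q _

end Sy

variable {b' : ℕ} {B' : Type} [TopologicalSpace B'] [ChartedSpace (Cm b') B'] [T2Space B']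
  [IsManifold 𝓘(ℂ, Cm b') ω B'] {c' : Cov B'}

/-- operators over the map `β` -/
def LocP (β : B' → B) (G : SF b B →ₗ[ℂ] SF b' B') : Prop :=
  ∀ ⦃U a⦄, a ∈ Ac b U → G a ∈ Ac b' (β ⁻¹' U)

namespace Sy

variable (S : Sy c F) (S' : Sy c' F') (β : B' → B) (r : c'.ι → c.ι)

/-- morphisms of local systems over `β` -/
structure Cor (f : c'.ι → F →ₗ[ℂ] F') : Prop where
  cont : Continuous β
  sub : ∀ i, ∀ y ∈ c'.V i, β y ∈ c.V (r i)
  eqv : ∀ i j y, y ∈ c'.V i → y ∈ c'.V j → ∀ x, S'.τ i j (f j x) = f i (S.τ (r i) (r j) x)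

/-- the induced map -/
def cor (G : SF b B →ₗ[ℂ] SF b' B') (f : c'.ι → F →ₗ[ℂ] F') : Q b S →ₗ[ℂ] Q b' S' :=
  S.lift fun i => S'.gl (β ⁻¹' c.V i) (fun k => f k ∘ₗ S.τ (r k) i) ∘ₗ G

variable {S S' β r} {f f' : c'.ι → F →ₗ[ℂ] F'} {G G' : SF b B →ₗ[ℂ] SF b' B'} {i : c.ι}
  {S₁ : Sy c F₁} {S₁' : Sy c' F₁'}

theorem Cor.opn (h : S.Cor S' β r f) (i : c.ι) : IsOpen (β ⁻¹' c.V i) := (c.opn i).preimage h.cont

theorem Cor.flat (h : S.Cor S' β r f) (i : c.ι) :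
    S'.Flat (β ⁻¹' c.V i) fun k => f k ∘ₗ S.τ (r k) i := fun k l y h0 h1 h2 x =>
  (h.eqv k l y h1 h2 _).trans (congrArg (f k) (S.coc _ _ _ _ (h.sub k y h1) (h.sub l y h2) h0 x))

theorem cor_gn (h : S.Cor S' β r f) (hG : LocP β G) (ha : a ∈ Ac b (c.V i)) (x : F) :
    S.cor S' β r G f (S.gn i a x) =
      S'.gl (β ⁻¹' c.V i) (fun k => f k ∘ₗ S.τ (r k) i) (G a) x :=
  lift_gn (fun i j _ _ _ _ ha x => gl_congr (h.opn j) (h.opn i) (h.flat j) (h.flat i)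
    (inter_comm _ _ ▸ hG ha) fun k y h1 h2 h3 =>
      congrArg (f k) (S.coc _ _ _ _ (h.sub k y h1) h3 h2 x).symm) ha x

theorem mu_cor (h : S.Cor S' β r f) (hG : LocP β G) {k : c'.ι} {L : Module.End ℂ (SF b' B')}
    (hL : In c' k L) (ha : a ∈ Ac b (c.V i)) (x : F) :
    S'.map S' L (fun _ => LinearMap.id) (S.cor S' β r G f (S.gn i a x)) =
      S'.gn k (L (G a)) (f k (S.τ (r k) i x)) := by
  rw [cor_gn h hG ha, mu_gl hL (h.opn i) (h.flat i) (hG ha)]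
  rfl

/-- naturality -/
theorem map_cor {g : c.ι → F →ₗ[ℂ] F₁} {g' : c'.ι → F' →ₗ[ℂ] F₁'} {f₁ : c'.ι → F₁ →ₗ[ℂ] F₁'}
    (h : S.Cor S' β r f) (h₁ : S₁.Cor S₁' β r f₁) (hG : LocP β G) (hg : S.Eqv S₁ g)
    (hg' : S'.Eqv S₁' g') (e : ∀ k y, y ∈ c'.V k → ∀ x, g' k (f k x) = f₁ k (g (r k) x))
    (u : Q b S) : S'.map S₁' 1 g' (S.cor S' β r G f u) = S₁.cor S₁' β r G f₁ (S.map S₁ 1 g u) :=
  S.ext (f := S'.map S₁' 1 g' ∘ₗ S.cor S' β r G f) (g := S₁.cor S₁' β r G f₁ ∘ₗ S.map S₁ 1 g)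
    (fun i a ha x => by
      rw [LinearMap.comp_apply, LinearMap.comp_apply, cor_gn h hG ha, map_gn Loc.one hg ha,
        map_gl Loc.one hg' (h.opn i) (h.flat i) (hG ha), Module.End.one_apply,
        Module.End.one_apply, cor_gn h₁ hG ha]
      exact gl_congr (h.opn i) (h.opn i) ((h.flat i).map hg') (h₁.flat i)
        ((inter_self _).symm ▸ hG ha) fun k y h1 h2 _ => (e k y h1 _).trans
          (congrArg (f₁ k) (hg _ _ _ (h.sub k y h1) h2 x).symm)) u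

variable {X : Tri F} {X' : Tri F'} {ε α : ℂ} {s : ℕ}

theorem op_cor (h : S.Cor S' β r f) (hG : LocP β G) {P : Module.End ℂ F} {P' : Module.End ℂ F'}
    {L : Module.End ℂ (SF b B)} {L' : Module.End ℂ (SF b' B')} (hP : S.Eqv S fun _ => P)
    (hP' : S'.Eqv S' fun _ => P') (hL : Loc L) (hL' : Loc L')
    (h1 : ∀ a ∈ Ac b univ, L' (G a) = α • G (L a))
    (h2 : ∀ k y, y ∈ c'.V k → ∀ x, P' (f k x) = ε • f k (P x)) (u : Q b S) :
    S'.map S' L' (fun _ => P') (S.cor S' β r G f u) =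
      (α * ε) • S.cor S' β r G f (S.map S L (fun _ => P) u) :=
  S.ext (f := S'.map S' L' (fun _ => P') ∘ₗ S.cor S' β r G f)
    (g := (α * ε) • (S.cor S' β r G f ∘ₗ S.map S L fun _ => P)) (fun i a ha x => by
      rw [LinearMap.comp_apply, LinearMap.smul_apply, LinearMap.comp_apply, cor_gn h hG ha,
        map_gn hL hP ha, cor_gn h hG (hL ha), map_gl' hL' hP' (h.opn i) (h.flat i) (hG ha)
          (x' := ε • P x) fun k y k1 k2 => by
            rw [LinearMap.comp_apply, h2 k y k1, map_smul, LinearMap.comp_apply,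
              hP _ _ _ (h.sub k y k1) k2],
        h1 a (Ac_mono (subset_univ _) ha), map_smul, map_smul, LinearMap.smul_apply, smul_smul,
        mul_comm]) u

/-- **morphisms over a map of the bases** -/
theorem sm_cor (h : S.Cor S' β r f) (hG : LocP β G) (hX : S.Tr X) (hX' : S'.Tr X')
    (h1 : ∀ a ∈ Ac b univ, pr b' B' (G a) = α • G (pr b B a))
    (h2 : ∀ a ∈ Ac b univ, dd b' B' (G a) = (α * ε) • G (dd b B a))
    (h3 : ∀ k y, y ∈ c'.V k → SM ε s X X' (f k)) :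
    SM (α * ε) s (S.tri b X) (S'.tri b' X') (S.cor S' β r G f) where
  A := op_cor h hG hX.eA hX'.eA loc_pr loc_pr h1 fun k y hy => (h3 k y hy).A
  B := op_cor h hG hX.eB hX'.eB loc_pr loc_pr h1 fun k y hy => (h3 k y hy).B
  δ u := by
    change S'.Dq b' _ _ = _ • S.cor S' β r G f (S.Dq b _ _)
    rw [Dq, Dq, LinearMap.add_apply, LinearMap.add_apply, map_add, smul_add,
      op_cor h hG hX.eδ hX'.eδ loc_pr loc_pr h1 fun k y hy => (h3 k y hy).δ,
      op_cor (ε := 1) h hG Eqv.id Eqv.id loc_dd loc_dd h2 fun _ _ _ _ => (one_smul _ _).symm,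
      mul_one]
  dg q u := (op_cor (α := 1) (ε := 1) h hG (hX.edg q) (hX'.edg (q + s)) Loc.one Loc.one
    (fun _ _ => (one_smul _ _).symm) (fun k y hy x => by rw [(h3 k y hy).dg, one_smul]) u).trans
      (by rw [one_mul, one_smul]; rfl)

end Sy

end Vale.Agent.P275FL
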