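import Vale.Agent.P275FL.Geo2
import Vale.Agent.P275FL.Gl
import Vale.Agent.P275AR.Hc

/-!
# P275, flat bundles: the map from the model to the forms on the total space
-/

set_option linter.unusedSectionVars false

open scoped Manifold ContDiff Topology
open Set
open Vale.Agent.P272.K Vale.Agent.P281Z.Hg Vale.Agent.P275MC Vale.Agent.P275FM
open Vale.Agent.P275AR (dc)

noncomputable section

namespace Vale.Agent.P275FL

/-- the pull-back by a proper map on the forms with compact support -/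
def pbc {d d' : ℕ} {X Y : Type} [TopologicalSpace X] [ChartedSpace (Cm d) X]
    [IsManifold 𝓘(ℂ, Cm d) ω X] [TopologicalSpace Y] [ChartedSpace (Cm d') Y]
    [IsManifold 𝓘(ℂ, Cm d') ω Y] {f : X → Y} (hf : Smo d d' f) (hp : IsProperMap f) :
    Ac d' (univ : Set Y) →ₗ[ℂ] Ac d (univ : Set X) :=
  (pb hf).restrict fun _ ha => pb_Ac hf (fun _ hK _ => hp.isCompact_preimage hK) ha

namespace Fl

variable {N b m : ℕ} {T B M : Type} [TopologicalSpace T] [ChartedSpace (Cm N) T] [T2Space T]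
  [IsManifold 𝓘(ℂ, Cm N) ω T] [TopologicalSpace B] [ChartedSpace (Cm b) B] [T2Space B]
  [IsManifold 𝓘(ℂ, Cm b) ω B] [TopologicalSpace M] [ChartedSpace (Cm m) M] [T2Space M]
  [IsManifold 𝓘(ℂ, Cm m) ω M] (F : Fl N b m T B M)

/-- the cover -/
@[reducible] def cv : Cov B := ⟨F.ι, F.V, F.opn, F.cov⟩

/-- the local system of the forms with compact support on the fibre -/
def sy : Sy F.cv (Ac m (univ : Set M)) where
  τ i j := pbc (F.smt i j) (F.prt i j)
  self _ _ h x := Subtype.ext ((pb_ext _ _ (F.t_self h) _).trans (pb_id x.1))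
  coc _ _ _ _ h1 h2 h3 x := Subtype.ext (pb_pb _ _ _ (F.t_t h1 h2 h3) x.1)

theorem sy_τ (i j : F.ι) (x : Ac m (univ : Set M)) :
    (F.sy.τ i j x : SF m M) = pb (F.smt i j) x := rfl

theorem eqv_dc : F.sy.Eqv F.sy fun _ => dc m univ :=
  fun i j _ _ _ x => Subtype.ext (pb_dd (F.smt i j) x.1)

/-- the map to the forms on the total space -/
def ka0 : Q b F.sy →ₗ[ℂ] SF N T := F.sy.lift fun i => (F.kp i).compl₂ (Ac m univ).subtype

variable {i : F.ι} {a : SF b B}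

theorem ka0_gn (ha : a ∈ Ac b (F.V i)) (x : Ac m (univ : Set M)) :
    F.ka0 (F.sy.gn i a x) = F.kp i a x :=
  Sy.lift_gn (fun _ _ _ _ _ _ ha x => F.kp_tr ha x.1) ha x

theorem ka0_mem (u : Q b F.sy) : F.ka0 u ∈ Ac N univ :=
  F.sy.ind (p := fun u => F.ka0 u ∈ Ac N univ) u (by rw [map_zero]; exact zero_mem _)
    (fun u v h1 h2 => by rw [map_add]; exact add_mem h1 h2)
    fun _ _ ha x => (F.ka0_gn ha x).symm ▸ F.kp_univ ha x.2

/-- the same with values in the forms with compact support -/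
def ka : Q b F.sy →ₗ[ℂ] Ac N (univ : Set T) := F.ka0.codRestrict _ F.ka0_mem

theorem ka_val (u : Q b F.sy) : (F.ka u : SF N T) = F.ka0 u := rfl

theorem ka_gn (ha : a ∈ Ac b (F.V i)) (x : Ac m (univ : Set M)) :
    (F.ka (F.sy.gn i a x) : SF N T) = F.kp i a x := F.ka0_gn ha x

theorem ka0_D (u : Q b F.sy) : dd N T (F.ka0 u) = F.ka0 (F.sy.Dq b (dc m univ) u) :=
  F.sy.ext (f := dd N T ∘ₗ F.ka0) (g := F.ka0 ∘ₗ F.sy.Dq b (dc m univ)) (fun i a ha x => by
    rw [LinearMap.comp_apply, LinearMap.comp_apply, F.ka0_gn ha, Sy.Dq_gn F.eqv_dc ha, map_add,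
      F.ka0_gn (loc_dd ha), F.ka0_gn (loc_pr ha), F.kp_dd ha]
    rfl) u

theorem ka_D (u : Q b F.sy) : dc N univ (F.ka u) = F.ka (F.sy.Dq b (dc m univ) u) :=
  Subtype.ext (F.ka0_D u)

theorem ka0_mu {ρ : B → ℝ} (hρ : SmoothFn (n := b) ρ) (hρ' : SmoothFn (n := N) fun z => ρ (F.p z))
    (u : Q b F.sy) :
    mu hρ' (F.ka0 u) = F.ka0 (F.sy.map F.sy (mu hρ) (fun _ => LinearMap.id) u) :=
  F.sy.ext (f := mu hρ' ∘ₗ F.ka0) (g := F.ka0 ∘ₗ F.sy.map F.sy (mu hρ) fun _ => LinearMap.id)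
    (fun i a ha x => by
      rw [LinearMap.comp_apply, LinearMap.comp_apply, F.ka0_gn ha, Sy.map_gn (loc_mu hρ) Sy.Eqv.id ha,
        F.ka0_gn (loc_mu hρ ha), F.mu_kp ha hρ]
      rfl) u

/-- forms which agree locally over the base agree -/
theorem sep {u v : SF N T} (h : ∀ i (ρ : B → ℝ) (_ : SmoothFn (n := b) ρ)
    (hρ' : SmoothFn (n := N) fun z => ρ (F.p z)), HasCompactSupport ρ → tsupport ρ ⊆ F.V i →
      mu hρ' u = mu hρ' v) : u = v := G2H.ext' fun e z he => by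
  obtain ⟨i, hi⟩ := F.cov (F.p z)
  obtain ⟨ρ, h1, h2, h3, -, -, h4⟩ := ex_bump (d := b) ((F.opn i).mem_nhds hi)
  have k := congrArg (fun w => vl w e (e z)) (h i ρ h1 (smoothFn_comp F.smp h1) h2 h3)
  simpa only [mu_vl _ _ he, h4.self_of_nhds, Complex.ofReal_one, one_smul] using k

end Fl

end Vale.Agent.P275FL
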