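import Vale.Agent.P275FL.Pul
import Vale.Agent.P275MK.Fl
import Vale.Agent.P275AR.Tg
import Vale.Agent.P275AR.Lc

/-!
# P275, flat bundles: the weights exist
-/

open scoped Manifold ContDiff Topology
open Set Function
open Vale.Agent.P272.K Vale.Agent.P281Z.Hg Vale.Agent.P275MC Vale.Agent.P275FM
open Vale.Agent.P275B (Mn Vr Cv)

noncomputable section

namespace Vale.Agent.P275FL

theorem ag {b d D : ℕ} {B : Mn b} {c : Cv B} {M : Vr d} (F : P275B.Fl c M D) : F.fl.Ag M.cp :=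
  F.fl_alg

theorem flat_of (ku : ∀ {b d D : ℕ} {B : Mn b} {c : Cv B} {M : Vr d} (F : P275B.Fl c M D),
    F.fl.KU) : P275B.FLAT :=
  ⟨{ w F := (ag F).w (ku F)
     gr F := (ag F).gr (ku F)
     deg F := P275AR.grd_prH fun _ hl => (ag F).grd_sc (ku F) hl _
     pull := fun {_ _ _ _ _ _ _ _ _ _ _ _ _ _ F' F _ _} H hp hβ ht _ _ hd hy k =>
       Fl.Mp.grd ⟨hβ, ht, H.sub, H.alg, hp, H.qt, H.φt⟩ (ag F) (ag F') (ku F) (ku F') hd hy k
     const F _ _ _ alg prp e ht _ _ hd hy k := (ag F).const (ku F) alg prp e ht hd hy k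
     hyp F _ _ _ _ h0 h1 _ _ h2 h3 h4 hk k := (ag F).hyp (ku F) h0 h1 h2 h3 h4 hk k
     lc F hc p h hp := by
       obtain ⟨Y, hY, k₀, k, y, hk, h0, h1, h2, h3, h4, e⟩ := P275AR.lc_data F hc h hp
       rw [← e]
       exact (ag F).hyp (ku F) h0 h1 h2 h3 h4 hk }⟩

end Vale.Agent.P275FL
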