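import Vale.Agent.P275FL.Rul

/-!
# P275, flat bundles: the weights and the pull-backs
-/

set_option linter.unusedSectionVars false

open scoped Manifold ContDiff Topology
open Set Function Filter
open Vale.Agent.P272.K Vale.Agent.P281Z.Hg Vale.Agent.P275MC Vale.Agent.P275FM Vale.Agent.P275SM
open Vale.Agent.P275RG
open Vale.Agent.P275AR (dc Hc wt)
open Vale.Agent.P280Z.Pu (smo_of)

noncomputable section

namespace Vale.Agent.P275FL

theorem Sy.Dq_cor {b b' : ℕ} {B B' : Type} [TopologicalSpace B] [ChartedSpace (Cm b) B] [T2Space B]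
    [IsManifold 𝓘(ℂ, Cm b) ω B] [TopologicalSpace B'] [ChartedSpace (Cm b') B'] [T2Space B']
    [IsManifold 𝓘(ℂ, Cm b') ω B'] {c : Cov B} {c' : Cov B'} {F F' : Type*} [AddCommGroup F]
    [Module ℂ F] [AddCommGroup F'] [Module ℂ F'] {S : Sy c F} {S' : Sy c' F'} {β : B' → B}
    {r : c'.ι → c.ι} {f : c'.ι → F →ₗ[ℂ] F'} {G : SF b B →ₗ[ℂ] SF b' B'} {D : Module.End ℂ F}
    {D' : Module.End ℂ F'} {α ε : ℂ} (h : S.Cor S' β r f) (hG : LocP β G)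
    (hD : S.Eqv S fun _ => D) (hD' : S'.Eqv S' fun _ => D')
    (h1 : ∀ a ∈ Ac b univ, pr b' B' (G a) = α • G (pr b B a))
    (h2 : ∀ a ∈ Ac b univ, dd b' B' (G a) = (α * ε) • G (dd b B a))
    (h3 : ∀ k y, y ∈ c'.V k → ∀ x, D' (f k x) = ε • f k (D x)) (u : Q b S) :
    S'.Dq b' D' (S.cor S' β r G f u) = (α * ε) • S.cor S' β r G f (S.Dq b D u) := by
  rw [Dq, Dq, LinearMap.add_apply, LinearMap.add_apply, map_add, smul_add,
    op_cor h hG hD hD' loc_pr loc_pr h1 h3,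
    op_cor (ε := 1) h hG Eqv.id Eqv.id loc_dd loc_dd h2 fun _ _ _ _ => (one_smul _ _).symm, mul_one]

section fib

variable {m m' : ℕ} {M M' : Type} [TopologicalSpace M] [ChartedSpace (Cm m) M] [T2Space M]
  [IsManifold 𝓘(ℂ, Cm m) ω M] [TopologicalSpace M'] [ChartedSpace (Cm m') M'] [T2Space M']
  [IsManifold 𝓘(ℂ, Cm m') ω M'] {c : Cp m M} {c' : Cp m' M'} {φ : M' → M} {ε : ℂ}

/-- the twisted pull-back on the forms -/
def tw (h : Alg c' c φ) (hp : IsProperMap φ) (ε : ℂ) :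
    Ac m (univ : Set M) →ₗ[ℂ] Ac m' (univ : Set M') := scc m' M' ε ∘ₗ pbc (smo_of h.hol) hp

variable (c c') in
/-- the twisted pull-back on the models -/
def twT (φ : M' → M) (ε : ℂ) : TT (al_co c) →ₗ[ℂ] TT (al_co c') := scT _ ε ∘ₗ pull _ _ φ

theorem tw_val (h : Alg c' c φ) (hp : IsProperMap φ) (x : Ac m (univ : Set M)) :
    (tw h hp ε x : SF m' M') = sc m' M' ε (pb (smo_of h.hol) x) := rfl

theorem dc_tw (h : Alg c' c φ) (hp : IsProperMap φ) (h0 : ε ≠ 0) (x : Ac m (univ : Set M)) :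
    dc m' univ (tw h hp ε x) = ε⁻¹ • tw h hp ε (dc m univ x) :=
  (dc_scc h0 _).trans (congrArg (fun y => ε⁻¹ • scc m' M' ε y) (Subtype.ext (pb_dd _ x.1).symm))

theorem sm_twT (h0 : ε ≠ 0) : SM ε⁻¹ 0 (tri (al_co c)) (tri (al_co c')) (twT c c' φ ε) :=
  ((sm_scT _ h0).comp (.of_str (pull_str φ))).congr (mul_one _).symm

theorem io_tw (h : Alg c' c φ) (hp : IsProperMap φ) (x : Ac m (univ : Set M)) :
    io _ (tw h hp ε x) = twT c c' φ ε (io _ x) :=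
  ((congrArg (scT _ ε) (pull_io (.of_proper h hp) hp (smo_of h.hol) x (pbc _ hp x) rfl)).trans
    (scT_io _ ε _ _ rfl)).symm

end fib

namespace Fl

variable {N b m N' b' m' : ℕ} {T B M T' B' M' : Type} [TopologicalSpace T] [ChartedSpace (Cm N) T]
  [T2Space T] [IsManifold 𝓘(ℂ, Cm N) ω T] [TopologicalSpace B] [ChartedSpace (Cm b) B] [T2Space B]
  [IsManifold 𝓘(ℂ, Cm b) ω B] [TopologicalSpace M] [ChartedSpace (Cm m) M] [T2Space M]
  [IsManifold 𝓘(ℂ, Cm m) ω M] [TopologicalSpace T'] [ChartedSpace (Cm N') T'] [T2Space T']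
  [IsManifold 𝓘(ℂ, Cm N') ω T'] [TopologicalSpace B'] [ChartedSpace (Cm b') B'] [T2Space B']
  [IsManifold 𝓘(ℂ, Cm b') ω B'] [TopologicalSpace M'] [ChartedSpace (Cm m') M'] [T2Space M']
  [IsManifold 𝓘(ℂ, Cm m') ω M'] {F : Fl N b m T B M} {F' : Fl N' b' m' T' B' M'} {c : Cp m M}
  {c' : Cp m' M'} {ε : ℂ}

theorem kp_wd_sc (hε : ε = 1 ∨ ε = -1) {i : F.ι} {a y : SF b B} (ha : a ∈ Ac b (F.V i))
    (hy : pr b B y = ε • y) (x : SF m M) :
    wd (F.kp i a x) (pb F.smp y) = F.kp i (wd a y) (sc m M ε x) := by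
  rcases hε with rfl | rfl
  · rw [sc_one, F.kp_wd_even ha (hy.trans (one_smul _ _))]
  · rw [sc_neg_one, F.kp_wd_odd ha (hy.trans (neg_one_smul _ _))]

variable (F F' c c') in
/-- maps of flat bundles which are algebraic and proper on the fibres -/
structure Mp (β : B' → B) (r : F'.ι → F.ι) (φ : F'.ι → M' → M) (t : T' → T) : Prop where
  hβ : Smo b' b β
  ht : Smo N' N t
  sub : ∀ i, ∀ x ∈ F'.V i, β x ∈ F.V (r i)
  alg : ∀ i, Alg c' c (φ i)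
  prp : ∀ i, IsProperMap (φ i)
  qt : ∀ z, F.p (t z) = β (F'.p z)
  φt : ∀ i z, F'.p z ∈ F'.V i → F.q (r i) (t z) = φ i (F'.q i z)

variable {β : B' → B} {r : F'.ι → F.ι} {φ : F'.ι → M' → M} {t : T' → T} {y : SF b' B'}

theorem Mp.ov (H : Mp F F' c c' β r φ t) (k : F'.ι) (i : F.ι) :
    F.Ov F' t β k i (F.t (r k) i ∘ φ k) := fun z h1 h2 =>
  (F.tr (r k) i _ ((H.qt z).symm ▸ H.sub k _ h1) ((H.qt z).symm ▸ h2)).trans
    (congrArg _ (H.φt k z h1))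

theorem Mp.eqv (H : Mp F F' c c' β r φ t) {i j : F'.ι} {x : B'} (hi : x ∈ F'.V i) (hj : x ∈ F'.V j)
    (z : M') : φ j (F'.t i j z) = F.t (r i) (r j) (φ i z) := by
  have h1 := F'.ps i (x, z) hi
  rw [F'.t_eq hi hj, ← H.φt j _ (h1 ▸ hj), H.ov i (r j) _ (h1 ▸ hi) (h1 ▸ H.sub j _ hj),
    F'.qs i (x, z) hi, comp_apply]

theorem Mp.cor0 (H : Mp F F' c c' β r φ t) (ε : ℂ) :
    F.sy.Cor F'.sy β r fun k => tw (H.alg k) (H.prp k) ε :=
  ⟨H.hβ.cont, H.sub, fun i j _ hi hj x => Subtype.ext (by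
    rw [sy_τ, tw_val, tw_val, sy_τ, pb_sc, ← pb_comp, ← pb_comp]
    exact congrArg _ (pb_ext _ _ (H.eqv hi hj) _))⟩

theorem Mp.cor1 (H : Mp F F' c c' β r φ t) (h : F.Ag c) (h' : F'.Ag c') (ε : ℂ) :
    h.st.Cor h'.st β r fun k => twT c c' (φ k) ε :=
  ⟨H.hβ.cont, H.sub, fun i j _ hi hj x => (pull_gl _ _ _).symm.trans (congrArg (scT _ ε) (by
    change pull _ _ _ (pull _ _ _ x) = pull _ _ _ (pull _ _ _ x)
    rw [pull_pull (.of_proper (H.alg j) (H.prp j)) (h'.mo i j),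
      pull_pull (h.mo _ _) (.of_proper (H.alg i) (H.prp i)), funext (H.eqv hi hj)]))⟩

theorem Mp.part (H : Mp F F' c c' β r φ t) (h : F.Ag c) (h' : F'.Ag c') (hε : ε = 1 ∨ ε = -1)
    (hp : pr b' B' y = ε • y) (hd : dd b' B' y = 0)
    (hy : ∀ a ∈ Ac b univ, wd (pb H.hβ a) y ∈ Ac b' univ) :
    ∃ (g : Q b F.sy →ₗ[ℂ] Q b' F'.sy) (f : Q b h.st →ₗ[ℂ] Q b' h'.st),
      SM 1 0 (h.st.tri b (tri _)) (h'.st.tri b' (tri _)) f ∧
      (∀ z, F'.sy.Dq b' (dc m' univ) (g z) = g (F.sy.Dq b (dc m univ) z)) ∧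
      (∀ z, F'.ka0 (g z) = wd (pb H.ht (F.ka0 z)) (pb F'.smp y)) ∧
      ∀ z, F'.sy.map h'.st 1 (fun _ => io _) (g z) = f (F.sy.map h.st 1 (fun _ => io _) z) := by
  have h0 := ne_of hε
  let G : SF b B →ₗ[ℂ] SF b' B' := (wdL b' B').flip y ∘ₗ pb H.hβ
  have e : ∀ a, G a = wd (pb H.hβ a) y := fun _ => rfl
  have hG : LocP β G := fun U a ha =>
    let ⟨K, k1, k2, k3⟩ := id ha
    Ac_of_Sp (hy a (Ac_mono (subset_univ _) ha))
      (fun x hx => wd_ZP_left (pb_ZP H.hβ (k3 _ hx)) y) (k1.isClosed.preimage H.hβ.cont)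
      (preimage_mono k2)
  have h1 : ∀ a ∈ Ac b univ, pr b' B' (G a) = ε • G (pr b B a) := fun a _ => by
    rw [e, e, pr_wd, hp, map_smul, pb_pr]
  have h2 : ∀ a ∈ Ac b univ, dd b' B' (G a) = (ε * ε⁻¹) • G (dd b B a) := fun a _ => by
    rw [e, e, dd_wd, hd, map_zero, add_zero, mul_inv_cancel₀ h0, one_smul, pb_dd]
  refine ⟨_, _, (Sy.sm_cor (H.cor1 h h' ε) hG h.tr h'.tr h1 h2 fun _ _ _ => sm_twT h0).congr
    (mul_inv_cancel₀ h0).symm, fun z => ?_, ?_, Sy.map_cor (H.cor0 ε) (H.cor1 h h' ε) hG h.eqv_io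
      h'.eqv_io fun k _ _ => io_tw _ _⟩
  · rw [Sy.Dq_cor (H.cor0 ε) hG F.eqv_dc F'.eqv_dc h1 h2 fun k _ _ => dc_tw _ _ h0,
      mul_inv_cancel₀ h0, one_smul]
  refine F.sy.ext (f := F'.ka0 ∘ₗ _) (g := (wdL N' T').flip (pb F'.smp y) ∘ₗ pb H.ht ∘ₗ F.ka0)
    fun i a ha x => F'.sep fun k ρ hρ hρ' k1 k2 => ?_
  have k3 := Sy.in_mu (c := F'.cv) hρ k1 k2
  change _ = mu hρ' (wd (pb H.ht (F.ka0 _)) _)
  rw [LinearMap.comp_apply, F'.ka0_mu hρ, Sy.mu_cor (H.cor0 ε) hG k3 ha,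
    F'.ka0_gn (mu_mem_Ac hρ k1 k2 _), F.ka0_gn ha, ← wd_mu,
    F.mu_pb_kp F' H.ht H.hβ (Pb1H.smo_comp (smo_of (H.alg k).hol) (F.smt _ i)) H.qt (H.ov k i) ha
      hρ hρ' k1 k2, kp_wd_sc hε (mu_mem_Ac hρ k1 k2 _) hp, wd_mu,
    pb_comp (smo_of (H.alg k).hol) (F.smt _ i)]
  rfl

/-- **pull-backs** -/
theorem Mp.grd (H : Mp F F' c c' β r φ t) (h : F.Ag c) (h' : F'.Ag c') (ku : F.KU) (ku' : F'.KU)
    (hd : dd b' B' y = 0) (hy : ∀ a ∈ Ac b univ, wd (pb H.hβ a) y ∈ Ac b' univ)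
    (k : P275AR.Act univ univ ((wdL N' T').flip (pb F'.smp y) ∘ₗ pb H.ht)) :
    Grd (h.w ku) (h'.w ku') 0 k.map := by
  have e : ∀ ε, ∀ a ∈ Ac b univ, wd (pb H.hβ a) (P275FL.prt ε y) ∈ Ac b' univ := fun ε a ha => by
    have k := loc_pr (hy _ (loc_pr ha))
    rw [pr_wd, ← pb_pr, pr_pr] at k
    rw [P275FL.prt, map_smul, map_add, map_smul]
    exact Submodule.smul_mem _ _ (add_mem (hy a ha) (Submodule.smul_mem _ _ k))
  obtain ⟨g, f, a1, a2, a3, a4⟩ :=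
    H.part h h' (.inl rfl) (pr_prt (.inl rfl) y) (dd_prt hd _) (e _)
  obtain ⟨g', f', b1, b2, b3, b4⟩ :=
    H.part h h' (.inr rfl) (pr_prt (.inr rfl) y) (dd_prt hd _) (e _)
  refine (h.zg ku).grd (h'.zg ku') (s := 0) (g := fun z => g z + g' z) k.ch ((a1.add b1).mor one_ne_zero)
    (fun z hz => ?_) (fun z => Subtype.ext ?_) fun z => ?_
  · rw [map_add, a2, b2, hz, map_zero, map_zero, add_zero]
  · rw [ka_val, map_add, a3, b3, ← map_add, ← map_add, prt_add]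
    rfl
  · rw [map_add, a4, b4, LinearMap.add_apply]

variable {φ : F.ι → M → M'} {t : T → M'} {y : SF b B}

theorem const_part (h : F.Ag c) (alg : ∀ i, Alg c c' (φ i)) (prp : ∀ i, IsProperMap (φ i))
    (e : ∀ i z, F.p z ∈ F.V i → t z = φ i (F.q i z)) (ht : Smo N m' t) (hε : ε = 1 ∨ ε = -1)
    (hp : pr b B y = ε • y) (hd : dd b B y = 0) (hy : y ∈ Ac b univ) :
    ∃ (g : Ac m' (univ : Set M') →ₗ[ℂ] Q b F.sy) (f : TT (al_co c') →ₗ[ℂ] Q b h.st),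
      SM 1 0 (tri _) (h.st.tri b (tri _)) f ∧
      (∀ z, dc m' univ z = 0 → F.sy.Dq b (dc m univ) (g z) = 0) ∧
      (∀ z, F.ka0 (g z) = wd (pb ht z.1) (pb F.smp y)) ∧
      ∀ z, F.sy.map h.st 1 (fun _ => io _) (g z) = f (io _ z) := by
  have h0 := ne_of hε
  have f0 : F.sy.Flat univ fun i => tw (alg i) (prp i) ε := fun i j _ _ hi hj x => Subtype.ext (by
    rw [sy_τ, tw_val, tw_val, pb_sc, pb_pb _ _ _ (inv_t e hi hj)])
  have f1 : h.st.Flat univ fun i => twT c' c (φ i) ε := fun i j _ _ hi hj x =>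
    (pull_gl _ _ _).symm.trans (congrArg (scT _ ε) (by
      rw [pull_pull (.of_proper (alg j) (prp j)) (h.mo i j), funext (inv_t e hi hj)]))
  refine ⟨_, _, (Sy.sm_gl h.tr isOpen_univ f1 hy hp hd fun _ _ _ _ => sm_twT h0).congr
    (mul_inv_cancel₀ h0).symm, fun z hz => ?_, fun z => F.sep fun k ρ hρ hρ' k1 k2 => ?_,
    fun z => (Sy.map_gl Loc.one h.eqv_io isOpen_univ f0 hy z).trans (Sy.gl_congr isOpen_univ
      isOpen_univ (f0.map h.eqv_io) f1 (by rwa [inter_self]) fun i _ _ _ _ => io_tw _ _ z)⟩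
  · rw [Sy.Dq_gl F.eqv_dc isOpen_univ f0 hy (x' := 0) fun i _ _ _ => by
      rw [dc_tw _ _ h0, hz, map_zero, smul_zero], hd, map_zero, map_zero, LinearMap.zero_apply,
      add_zero]
  rw [F.ka0_mu hρ, Sy.mu_gl (Sy.in_mu (c := F.cv) hρ k1 k2) isOpen_univ f0 hy,
    F.ka0_gn (mu_mem_Ac hρ k1 k2 _), tw_val, ← pb_sc,
    ← F.kp_const ht _ (e k) (mu_mem_Ac hρ k1 k2 _), pb_sc,
    wd_sw hε (by rw [← pb_pr, pr_mu, hp, map_smul, map_smul]), pb_mu _ hρ hρ', mu_wd]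

/-- **maps to a variety** -/
theorem Ag.const (h : F.Ag c) (ku : F.KU) (alg : ∀ i, Alg c c' (φ i))
    (prp : ∀ i, IsProperMap (φ i)) (e : ∀ i z, F.p z ∈ F.V i → t z = φ i (F.q i z))
    (ht : Smo N m' t) (hd : dd b B y = 0) (hy : y ∈ Ac b univ)
    (k : P275AR.Act univ univ ((wdL N T).flip (pb F.smp y) ∘ₗ pb ht)) :
    Grd (wt c') (h.w ku) 0 k.map := by
  have l : ∀ ε, P275FL.prt ε y ∈ Ac b univ := fun ε =>
    Submodule.smul_mem _ _ (add_mem hy (Submodule.smul_mem _ _ (loc_pr hy)))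
  obtain ⟨g, f, a1, a2, a3, a4⟩ :=
    const_part h alg prp e ht (.inl rfl) (pr_prt (.inl rfl) y) (dd_prt hd _) (l _)
  obtain ⟨g', f', b1, b2, b3, b4⟩ :=
    const_part h alg prp e ht (.inr rfl) (pr_prt (.inr rfl) y) (dd_prt hd _) (l _)
  refine (h.zg ku).grd_from (tri_ok _) (grd_io (al_co c')) (s := 0) (g := fun z => g z + g' z) k.ch
    ((a1.add b1).mor one_ne_zero) (fun z hz => ?_) (fun z => Subtype.ext ?_) fun z => ?_
  · rw [map_add, a2 z hz, b2 z hz, add_zero]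
  · rw [ka_val, map_add, a3, b3, ← map_add, ← map_add, prt_add]
    rfl
  · rw [map_add, a4, b4, LinearMap.add_apply]

end Fl

end Vale.Agent.P275FL
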