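import Vale.Agent.P275MC.Glue
import Mathlib.RingTheory.Flat.Basic
import Mathlib.LinearAlgebra.Basis.VectorSpace

/-!
# P275, flat bundles: forms with compact support with values in a local system
-/

set_option linter.unusedSectionVars false

open scoped Manifold ContDiff Topology TensorProduct
open Set
open Vale.Agent.P272.K Vale.Agent.P281Z.Hg Vale.Agent.P275MC

noncomputable section

namespace Vale.Agent.P275FL

/-- an open cover -/
structure Cov (B : Type) [TopologicalSpace B] : Type 1 where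
  ι : Type
  V : ι → Set B
  opn : ∀ i, IsOpen (V i)
  cov : ∀ x, ∃ i, x ∈ V i

variable {b : ℕ} {B : Type} [TopologicalSpace B] [ChartedSpace (Cm b) B] {c : Cov B}

/-- a local system with constant transitions -/
structure Sy (c : Cov B) (F : Type*) [AddCommGroup F] [Module ℂ F] where
  τ : c.ι → c.ι → Module.End ℂ F
  self : ∀ i y, y ∈ c.V i → ∀ x, τ i i x = x
  coc : ∀ i j k y, y ∈ c.V i → y ∈ c.V j → y ∈ c.V k → ∀ x, τ i j (τ j k x) = τ i k x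

theorem ex_prj (U : Set B) : ∃ P : Module.End ℂ (SF b B), (∀ a, P a ∈ Ac b U) ∧
    ∀ a ∈ Ac b U, P a = a := by
  obtain ⟨r, hr⟩ := (Ac b U).subtype.exists_leftInverse_of_injective (Ac b U).ker_subtype
  exact ⟨(Ac b U).subtype ∘ₗ r, fun a => (r a).2, fun a ha =>
    congrArg Subtype.val (LinearMap.congr_fun hr ⟨a, ha⟩)⟩

variable (b) in
/-- a projection on the forms with compact support in `U` -/
def prj (U : Set B) : Module.End ℂ (SF b B) := (ex_prj U).choose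

theorem prj_mem (U : Set B) (a : SF b B) : prj b U a ∈ Ac b U := (ex_prj U).choose_spec.1 a

theorem prj_eq {U : Set B} {a : SF b B} (h : a ∈ Ac b U) : prj b U a = a :=
  (ex_prj U).choose_spec.2 a h

theorem zero_or {U : Set B} {a : SF b B} (h : a ∈ Ac b U) : a = 0 ∨ ∃ y, y ∈ U := by
  rcases U.eq_empty_or_nonempty with rfl | h1
  · exact Or.inl (by rwa [Ac_empty] at h)
  · exact Or.inr h1

/-- operators which do not increase the supports -/
def Loc (L : Module.End ℂ (SF b B)) : Prop := ∀ ⦃U a⦄, a ∈ Ac b U → L a ∈ Ac b U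

theorem Loc.one : Loc (1 : Module.End ℂ (SF b B)) := fun _ _ h => h

theorem Loc.mul {L L' : Module.End ℂ (SF b B)} (h : Loc L) (h' : Loc L') : Loc (L * L') :=
  fun _ _ k => h (h' k)

theorem loc_mu {ρ : B → ℝ} (h : SmoothFn (n := b) ρ) : Loc (mu h) := fun _ _ => mu_Ac h

theorem loc_wd (y : SF b B) : Loc (wd y) := fun _ _ => wd_Ac y

theorem loc_pj (k : ℤ) : Loc (pj b B k) := fun _ _ => pj_Ac k

theorem loc_pr : Loc (pr b B) := fun _ _ => op_Ac (opr_vl _)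

variable {F F' F'' W : Type*} [AddCommGroup F] [Module ℂ F] [AddCommGroup F'] [Module ℂ F']
  [AddCommGroup F''] [Module ℂ F''] [AddCommGroup W] [Module ℂ W]

variable (b) in
/-- the relations -/
def rel (S : Sy c F) : Submodule ℂ (c.ι →₀ SF b B ⊗[ℂ] F) :=
  Submodule.span ℂ {u | (∃ i a x, u = .single i (a ⊗ₜ x) - .single i (prj b (c.V i) a ⊗ₜ x)) ∨
    ∃ i j a x, a ∈ Ac b (c.V i ∩ c.V j) ∧ u = .single j (a ⊗ₜ x) - .single i (a ⊗ₜ S.τ i j x)}

variable (b) in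
/-- forms with compact support with values in the local system -/
def Q (S : Sy c F) : Type _ := (c.ι →₀ SF b B ⊗[ℂ] F) ⧸ rel b S

instance (S : Sy c F) : AddCommGroup (Q b S) :=
  inferInstanceAs (AddCommGroup ((c.ι →₀ SF b B ⊗[ℂ] F) ⧸ rel b S))

instance (S : Sy c F) : Module ℂ (Q b S) :=
  inferInstanceAs (Module ℂ ((c.ι →₀ SF b B ⊗[ℂ] F) ⧸ rel b S))

namespace Sy

variable (S : Sy c F) (S' : Sy c F') (S'' : Sy c F'')

/-- the elements given in one chart -/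
def em (i : c.ι) : SF b B ⊗[ℂ] F →ₗ[ℂ] Q b S := (rel b S).mkQ ∘ₗ Finsupp.lsingle i

/-- the generators -/
def gn (i : c.ι) : SF b B →ₗ[ℂ] F →ₗ[ℂ] Q b S := (TensorProduct.mk ℂ _ _).compr₂ (S.em i)

/-- compatible families of bilinear maps -/
def Cpt (f : c.ι → SF b B →ₗ[ℂ] F →ₗ[ℂ] W) : Prop :=
  ∀ i j y, y ∈ c.V i → y ∈ c.V j → ∀ a ∈ Ac b (c.V i ∩ c.V j), ∀ x, f j a x = f i a (S.τ i j x)

/-- morphisms of local systems -/
def Eqv (f : c.ι → F →ₗ[ℂ] F') : Prop :=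
  ∀ i j y, y ∈ c.V i → y ∈ c.V j → ∀ x, S'.τ i j (f j x) = f i (S.τ i j x)

variable {i j : c.ι} {a : SF b B}

theorem em_tmul (i : c.ι) (a : SF b B) (x : F) : S.em i (a ⊗ₜ x) = S.gn i a x := rfl

theorem gn_prj (i : c.ι) (a : SF b B) (x : F) : S.gn i (prj b (c.V i) a) x = S.gn i a x :=
  Eq.symm ((Submodule.Quotient.eq (rel b S)).2 (Submodule.subset_span (Or.inl ⟨i, a, x, rfl⟩)))

theorem gn_tr (h : a ∈ Ac b (c.V i ∩ c.V j)) (x : F) : S.gn j a x = S.gn i a (S.τ i j x) :=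
  (Submodule.Quotient.eq _).2 (Submodule.subset_span (Or.inr ⟨i, j, a, x, h, rfl⟩))

theorem ind {p : Q b S → Prop} (u : Q b S) (h0 : p 0) (ha : ∀ u v, p u → p v → p (u + v))
    (h : ∀ i, ∀ a ∈ Ac b (c.V i), ∀ x, p (S.gn i a x)) : p u := by
  obtain ⟨u, rfl⟩ := (rel b S).mkQ_surjective u
  induction u using Finsupp.induction_linear with
  | zero => exact h0
  | add u v h1 h2 => exact ha _ _ h1 h2
  | single i z =>
    change p (S.em i z)
    induction z using TensorProduct.induction_on with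
    | zero => rwa [map_zero]
    | tmul a x => exact S.em_tmul i a x ▸ S.gn_prj i a x ▸ h i _ (prj_mem _ a) x
    | add y z h1 h2 => exact map_add (S.em i) y z ▸ ha _ _ h1 h2

theorem ext {f g : Q b S →ₗ[ℂ] W}
    (h : ∀ i, ∀ a ∈ Ac b (c.V i), ∀ x, f (S.gn i a x) = g (S.gn i a x)) (u : Q b S) : f u = g u :=
  S.ind (p := fun u => f u = g u) u (by rw [map_zero, map_zero])
    (fun u v h1 h2 => by rw [map_add, map_add, h1, h2]) h

theorem ex_lift (f : c.ι → SF b B →ₗ[ℂ] F →ₗ[ℂ] W) : ∃ g : Q b S →ₗ[ℂ] W, S.Cpt f →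
    ∀ i, ∀ a ∈ Ac b (c.V i), ∀ x, g (S.gn i a x) = f i a x := by
  by_cases h : S.Cpt f
  swap
  · exact ⟨0, fun k => (h k).elim⟩
  let g : (c.ι →₀ SF b B ⊗[ℂ] F) →ₗ[ℂ] W :=
    Finsupp.lsum ℂ fun i => TensorProduct.lift (f i ∘ₗ prj b (c.V i))
  have hg : ∀ i a x, g (.single i (a ⊗ₜ x)) = f i (prj b (c.V i) a) x := fun i a x =>
    (Finsupp.lsum_single _ _ _ _).trans (TensorProduct.lift.tmul _ _)
  refine ⟨(rel b S).liftQ g (Submodule.span_le.2 ?_), fun _ i a ha x =>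
    (hg i a x).trans (by rw [prj_eq ha])⟩
  rintro _ (⟨i, a, x, rfl⟩ | ⟨i, j, a, x, ha, rfl⟩)
  · rw [SetLike.mem_coe, LinearMap.mem_ker, map_sub, hg, hg, prj_eq (prj_mem _ a), sub_self]
  · rw [SetLike.mem_coe, LinearMap.mem_ker, map_sub, hg, hg, prj_eq (Ac_mono inter_subset_left ha),
      prj_eq (Ac_mono inter_subset_right ha), sub_eq_zero]
    rcases zero_or ha with rfl | ⟨y, hy⟩
    · simp only [map_zero, LinearMap.zero_apply]
    · exact h i j y hy.1 hy.2 a ha x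

/-- the universal property -/
def lift (f : c.ι → SF b B →ₗ[ℂ] F →ₗ[ℂ] W) : Q b S →ₗ[ℂ] W := (S.ex_lift f).choose

/-- the action of a local operator on the base and of a morphism of local systems -/
def map (L : Module.End ℂ (SF b B)) (f : c.ι → F →ₗ[ℂ] F') : Q b S →ₗ[ℂ] Q b S' :=
  S.lift fun i => (S'.gn i).compl₁₂ L (f i)

/-- localisation in the chart `i` -/
def rt (i : c.ι) (L : Module.End ℂ (SF b B)) : Q b S →ₗ[ℂ] SF b B ⊗[ℂ] F :=
  S.lift fun j => (TensorProduct.mk ℂ _ _).compl₁₂ L (S.τ i j)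

/-- the elements with support in `K` -/
def Sq (K : Set B) : Submodule ℂ (Q b S) :=
  Submodule.span ℂ {u | ∃ i a x, a ∈ Ac b (c.V i) ∧ a ∈ Sp b K ∧ u = S.gn i a x}

/-- the product of two local systems -/
def prod : Sy c (F × F') where
  τ i j := (S.τ i j).prodMap (S'.τ i j)
  self i y h _ := Prod.ext (S.self i y h _) (S'.self i y h _)
  coc i j k y h1 h2 h3 _ := Prod.ext (S.coc i j k y h1 h2 h3 _) (S'.coc i j k y h1 h2 h3 _)

variable {S S' S''} {L L' : Module.End ℂ (SF b B)} {f f' : c.ι → F →ₗ[ℂ] F'}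
  {g : c.ι → F' →ₗ[ℂ] F''}

theorem lift_gn {f : c.ι → SF b B →ₗ[ℂ] F →ₗ[ℂ] W} (h : S.Cpt f) (ha : a ∈ Ac b (c.V i)) (x : F) :
    S.lift f (S.gn i a x) = f i a x := (S.ex_lift f).choose_spec h i a ha x

theorem Eqv.id : S.Eqv S fun _ => LinearMap.id := fun _ _ _ _ _ _ => rfl

theorem Eqv.zero : S.Eqv S' fun _ => 0 := fun _ _ _ _ _ _ => map_zero _

theorem Eqv.comp (hg : S'.Eqv S'' g) (hf : S.Eqv S' f) : S.Eqv S'' fun i => g i ∘ₗ f i :=
  fun i j y h1 h2 x => (hg i j y h1 h2 _).trans (congrArg (g i) (hf i j y h1 h2 x))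

theorem Eqv.add (hf : S.Eqv S' f) (hf' : S.Eqv S' f') : S.Eqv S' fun i => f i + f' i :=
  fun i j y h1 h2 x => by
    rw [LinearMap.add_apply, map_add, hf i j y h1 h2, hf' i j y h1 h2, LinearMap.add_apply]

theorem Eqv.neg (hf : S.Eqv S' f) : S.Eqv S' fun i => -f i := fun i j y h1 h2 x => by
  rw [LinearMap.neg_apply, map_neg, hf i j y h1 h2, LinearMap.neg_apply]

theorem Eqv.fst : (S.prod S').Eqv S fun _ => .fst ℂ F F' := fun _ _ _ _ _ _ => rfl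

theorem Eqv.snd : (S.prod S').Eqv S' fun _ => .snd ℂ F F' := fun _ _ _ _ _ _ => rfl

theorem Eqv.inl : S.Eqv (S.prod S') fun _ => .inl ℂ F F' :=
  fun i j _ _ _ _ => Prod.ext rfl (map_zero (S'.τ i j))

theorem Eqv.inr : S'.Eqv (S.prod S') fun _ => .inr ℂ F F' :=
  fun i j _ _ _ _ => Prod.ext (map_zero (S.τ i j)) rfl

theorem Eqv.prod {g : c.ι → F →ₗ[ℂ] F''} (hf : S.Eqv S' f) (hg : S.Eqv S'' g) :
    S.Eqv (S'.prod S'') fun i => (f i).prod (g i) :=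
  fun i j y h1 h2 x => Prod.ext (hf i j y h1 h2 x) (hg i j y h1 h2 x)

theorem map_gn (hL : Loc L) (hf : S.Eqv S' f) (ha : a ∈ Ac b (c.V i)) (x : F) :
    S.map S' L f (S.gn i a x) = S'.gn i (L a) (f i x) :=
  lift_gn (fun i j y h1 h2 a ha x => by
    rw [LinearMap.compl₁₂_apply, LinearMap.compl₁₂_apply, S'.gn_tr (hL ha), hf i j y h1 h2]) ha x

theorem map_map (hL' : Loc L') (hg : S'.Eqv S'' g) (hL : Loc L) (hf : S.Eqv S' f) (u : Q b S) :
    S'.map S'' L' g (S.map S' L f u) = S.map S'' (L' * L) (fun i => g i ∘ₗ f i) u :=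
  S.ext (f := S'.map S'' L' g ∘ₗ S.map S' L f) (fun i a ha x => by
    rw [LinearMap.comp_apply, map_gn hL hf ha, map_gn hL' hg (hL ha),
      map_gn (hL'.mul hL) (hg.comp hf) ha]
    rfl) u

theorem map_id (u : Q b S) : S.map S 1 (fun _ => LinearMap.id) u = u :=
  S.ext (g := LinearMap.id) (fun _ _ ha x => map_gn Loc.one Eqv.id ha x) u

theorem map_zero' (hL : Loc L) (u : Q b S) : S.map S' L (fun _ => 0) u = 0 :=
  S.ext (g := 0) (fun _ _ ha x => (map_gn hL Eqv.zero ha x).trans (map_zero _)) u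

theorem map_em (hf : S.Eqv S' f) (i : c.ι) (z : SF b B ⊗[ℂ] F) :
    S.map S' 1 f (S.em i z) = S'.em i ((f i).lTensor _ z) := by
  induction z using TensorProduct.induction_on with
  | zero => simp only [map_zero]
  | tmul a x =>
    rw [em_tmul, ← gn_prj, map_gn Loc.one hf (prj_mem _ a), LinearMap.lTensor_tmul, em_tmul,
      Module.End.one_apply, gn_prj]
  | add y z h1 h2 => simp only [map_add, h1, h2]

theorem ex_Sq (u : Q b S) : ∃ K, IsCompact K ∧ u ∈ S.Sq K := by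
  refine S.ind (p := fun u => ∃ K, IsCompact K ∧ u ∈ S.Sq K) u ⟨∅, isCompact_empty, zero_mem _⟩
    ?_ fun i a ha x => ?_
  · rintro u v ⟨K, h1, h2⟩ ⟨K', h3, h4⟩
    refine ⟨K ∪ K', h1.union h3, add_mem (Submodule.span_mono ?_ h2) (Submodule.span_mono ?_ h4)⟩
    · rintro _ ⟨i, a, x, k1, k2, rfl⟩
      exact ⟨i, a, x, k1, Sp_mono subset_union_left k2, rfl⟩
    · rintro _ ⟨i, a, x, k1, k2, rfl⟩
      exact ⟨i, a, x, k1, Sp_mono subset_union_right k2, rfl⟩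
  · obtain ⟨K, h1, -, h3⟩ := id ha
    exact ⟨K, h1, Submodule.subset_span ⟨i, a, x, ha, h3, rfl⟩⟩

theorem Sq_ext {K : Set B} {f g : Q b S →ₗ[ℂ] W} (h : ∀ i, ∀ a ∈ Ac b (c.V i), a ∈ Sp b K → ∀ x,
    f (S.gn i a x) = g (S.gn i a x)) {u : Q b S} (hu : u ∈ S.Sq K) : f u = g u :=
  LinearMap.eqOn_span (by
    rintro _ ⟨i, a, x, h1, h2, rfl⟩
    exact h i a h1 h2 x) hu

/-- local operators with values in the chart `i` -/
def In (c : Cov B) (i : c.ι) (L : Module.End ℂ (SF b B)) : Prop :=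
  ∀ ⦃U a⦄, a ∈ Ac b U → L a ∈ Ac b (c.V i ∩ U)

theorem In.loc (h : In c i L) : Loc L := fun _ _ k => Ac_mono inter_subset_right (h k)

theorem rt_gn (hL : In c i L) (ha : a ∈ Ac b (c.V j)) (x : F) :
    S.rt i L (S.gn j a x) = L a ⊗ₜ S.τ i j x :=
  lift_gn (fun j k _ _ _ a ha x => by
    change L a ⊗ₜ S.τ i k x = L a ⊗ₜ S.τ i j (S.τ j k x)
    rcases zero_or (hL ha) with h | ⟨y, hy⟩
    · rw [h, TensorProduct.zero_tmul, TensorProduct.zero_tmul]
    · rw [S.coc i j k y hy.1 hy.2.1 hy.2.2]) ha x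

theorem em_rt (hL : In c i L) (u : Q b S) :
    S.em i (S.rt i L u) = S.map S L (fun _ => LinearMap.id) u :=
  S.ext (f := S.em i ∘ₗ S.rt i L) (fun j a ha x => by
    rw [LinearMap.comp_apply, rt_gn hL ha, em_tmul, map_gn hL.loc Eqv.id ha, ← S.gn_tr (hL ha)]
    rfl) u

theorem rt_map (hL : In c i L) (hf : S.Eqv S' f) (u : Q b S) :
    S'.rt i L (S.map S' 1 f u) = (f i).lTensor _ (S.rt i L u) :=
  S.ext (f := S'.rt i L ∘ₗ S.map S' 1 f) (g := (f i).lTensor _ ∘ₗ S.rt i L) (fun j a ha x => by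
    rw [LinearMap.comp_apply, LinearMap.comp_apply, map_gn Loc.one hf ha, Module.End.one_apply,
      rt_gn hL ha, rt_gn hL ha, LinearMap.lTensor_tmul]
    rcases zero_or (hL ha) with h | ⟨y, hy⟩
    · rw [h, TensorProduct.zero_tmul, TensorProduct.zero_tmul]
    · rw [hf i j y hy.1 hy.2]) u

variable [T2Space B] [IsManifold 𝓘(ℂ, Cm b) ω B]

theorem in_mu {ρ : B → ℝ} (h : SmoothFn (n := b) ρ) (h1 : HasCompactSupport ρ)
    (h2 : tsupport ρ ⊆ c.V i) : In c i (mu h) :=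
  fun _ a ha => Ac_inter (mu_mem_Ac h h1 h2 a) (mu_Ac h ha)

theorem sum_mu {K : Set B} {κ : Type*} {V : κ → Set B} (P : PU b V)
    (h : ∀ y ∈ K, ∑ j, P.ρ j y = 1) {u : Q b S} (hu : u ∈ S.Sq K) :
    ∑ j, S.map S (mu (P.sm j)) (fun _ => LinearMap.id) u = u := by
  rw [← LinearMap.sum_apply]
  refine Sq_ext (g := LinearMap.id) (fun i a h1 h2 x => ?_) hu
  simp only [LinearMap.sum_apply, map_gn (loc_mu _) Eqv.id h1, LinearMap.id_apply]
  rw [← LinearMap.sum_apply, ← map_sum, P.sum h h2]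

/-- partitions of unity -/
theorem ex_sum {κ : Type*} {V : κ → Set B} (hV : ∀ k, IsOpen (V k)) (h : ∀ y, ∃ k, y ∈ V k)
    (u : Q b S) : ∃ P : PU b V, ∑ j, S.map S (mu (P.sm j)) (fun _ => LinearMap.id) u = u := by
  obtain ⟨K, h1, h2⟩ := ex_Sq u
  obtain ⟨P, hP⟩ := ex_PU (d := b) hV h1 fun y _ => mem_iUnion.2 (h y)
  exact ⟨P, sum_mu P (fun y hy => (hP y hy).self_of_nhds) h2⟩

theorem dec (u : Q b S) :
    ∃ P : PU b c.V, ∑ j, S.em (P.ix j) (S.rt (P.ix j) (mu (P.sm j)) u) = u := by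
  obtain ⟨P, hP⟩ := ex_sum c.opn c.cov u
  exact ⟨P, (Finset.sum_congr rfl fun j _ => em_rt (in_mu _ (P.cp j) (P.sp j)) u).trans hP⟩

/-- an element which vanishes locally vanishes -/
theorem eq_zero {u : Q b S} (h : ∀ i (ρ : B → ℝ) (hρ : SmoothFn (n := b) ρ), HasCompactSupport ρ →
    tsupport ρ ⊆ c.V i → S.map S (mu hρ) (fun _ => LinearMap.id) u = 0) : u = 0 := by
  obtain ⟨P, hP⟩ := ex_sum c.opn c.cov u
  rw [← hP]
  exact Finset.sum_eq_zero fun j _ => h _ _ _ (P.cp j) (P.sp j)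

end Sy

theorem ten_ex {F₁ F₂ F₃ F₄ : Type*} [AddCommGroup F₁] [Module ℂ F₁] [AddCommGroup F₂]
    [Module ℂ F₂] [AddCommGroup F₃] [Module ℂ F₃] [AddCommGroup F₄] [Module ℂ F₄] {u : F₁ →ₗ[ℂ] F₂}
    {v : F₁ →ₗ[ℂ] F₃} {w : F₄ →ₗ[ℂ] F₃} (h : ∀ x, u x = 0 → ∃ y, v x = w y) {z : W ⊗[ℂ] F₁}
    (hz : u.lTensor W z = 0) : ∃ y, v.lTensor W z = w.lTensor W y := by
  obtain ⟨z, rfl⟩ := (Module.Flat.lTensor_exact W (LinearMap.exact_subtype_ker_map u) z).1 hz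
  induction z using TensorProduct.induction_on with
  | zero => exact ⟨0, by simp only [map_zero]⟩
  | tmul a x =>
    obtain ⟨y, hy⟩ := h x x.2
    exact ⟨a ⊗ₜ y, congrArg (a ⊗ₜ ·) hy⟩
  | add y z h1 h2 =>
    have k : ∀ z, u.lTensor W ((LinearMap.ker u).subtype.lTensor W z) = 0 := fun z =>
      (Module.Flat.lTensor_exact W (LinearMap.exact_subtype_ker_map u) _).2 ⟨z, rfl⟩
    obtain ⟨y', e1⟩ := h1 (k _)
    obtain ⟨z', e2⟩ := h2 (k _)
    exact ⟨y' + z', by rw [map_add, map_add, map_add, e1, e2]⟩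

/-- **the local principle** -/
theorem Sy.loc_ex [T2Space B] [IsManifold 𝓘(ℂ, Cm b) ω B] {F₁ F₂ F₃ F₄ : Type*} [AddCommGroup F₁]
    [Module ℂ F₁] [AddCommGroup F₂] [Module ℂ F₂] [AddCommGroup F₃] [Module ℂ F₃] [AddCommGroup F₄]
    [Module ℂ F₄] {S₁ : Sy c F₁} {S₂ : Sy c F₂} {S₃ : Sy c F₃} {S₄ : Sy c F₄}
    {u : c.ι → F₁ →ₗ[ℂ] F₂} {v : c.ι → F₁ →ₗ[ℂ] F₃} {w : c.ι → F₄ →ₗ[ℂ] F₃} (hu : S₁.Eqv S₂ u)
    (hv : S₁.Eqv S₃ v) (hw : S₄.Eqv S₃ w) (h : ∀ i x, u i x = 0 → ∃ y, v i x = w i y)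
    {z : Q b S₁} (hz : S₁.map S₂ 1 u z = 0) : ∃ y, S₁.map S₃ 1 v z = S₄.map S₃ 1 w y := by
  obtain ⟨P, hP⟩ := Sy.dec z
  choose y hy using fun j => ten_ex (h (P.ix j)) (z := S₁.rt (P.ix j) (mu (P.sm j)) z) (by
    rw [← Sy.rt_map (Sy.in_mu _ (P.cp j) (P.sp j)) hu, hz, map_zero])
  refine ⟨∑ j, S₄.em (P.ix j) (y j), ?_⟩
  rw [← hP, map_sum, map_sum]
  exact Finset.sum_congr rfl fun j _ => by rw [Sy.map_em hv, Sy.map_em hw, hy]

end Vale.Agent.P275FL
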