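import Vale.Agent.P275FL.Wt
import Vale.Agent.P275FL.Ka
import Vale.Agent.P275SM.Tg

/-!
# P275, flat bundles: the weights and their rules
-/

set_option linter.unusedSectionVars false

open scoped Manifold ContDiff Topology
open Set Function Filter
open Vale.Agent.P272.K Vale.Agent.P281Z.Hg Vale.Agent.P275MC Vale.Agent.P275FM Vale.Agent.P275SM
open Vale.Agent.P281Z (Mf)
open Vale.Agent.P275RG
open Vale.Agent.P275AR (dc Hc del pb_gl)
open Vale.Agent.P275KU (wd_even wd_odd)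

noncomputable section

namespace Vale.Agent.P275FL

theorem Zg.grd_from {T₀ T T₀' P' T' : Type*} [AddCommGroup T₀] [Module ℂ T₀] [AddCommGroup T]
    [Module ℂ T] [AddCommGroup T₀'] [Module ℂ T₀'] [AddCommGroup P'] [Module ℂ P']
    [AddCommGroup T'] [Module ℂ T'] {D : Module.End ℂ T₀} {X : Tri T} {ι : T₀ →ₗ[ℂ] T}
    {D' : Module.End ℂ T₀'} {E' : Module.End ℂ P'} {X' : Tri T'} {κ' : P' →ₗ[ℂ] T₀'}
    {ι' : P' →ₗ[ℂ] T'} (h' : Zg D' E' X' κ' ι') (k : X.OK) {w : ℕ → Module.End ℂ (Coh D)}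
    {c₀ : Ch D X.D ι} (hw : Grd w k.wt 0 (Coh.map ι c₀)) {s : ℕ} {f₀ : T₀ →ₗ[ℂ] T₀'} {g : T₀ → P'}
    {f : T →ₗ[ℂ] T'} (c : Ch D D' f₀) (hf : Tri.Mor X X' s f) (h0 : ∀ z, D z = 0 → E' (g z) = 0)
    (e1 : ∀ z, κ' (g z) = f₀ z) (e2 : ∀ z, ι' (g z) = f (ι z)) : Grd w h'.w s (Coh.map f₀ c) :=
  h'.grd_to (ψ := Coh.map f hf.ch ∘ₗ Coh.map ι c₀)
    (by simpa only [zero_add] using (k.grd_mor h'.ok hf).comp hw k.gr_wt) fun x => by
    obtain ⟨z, hz, rfl⟩ := Coh.ind x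
    rw [Coh.map_mk, Coh.mk_congr (e1 z).symm, h'.iso_mk _ (h0 z hz)]
    exact Coh.mk_congr (e2 z) _

section forms

variable {n : ℕ} {U : Type} [TopologicalSpace U] [ChartedSpace (Cm n) U] {ε : ℂ} {u y : SF n U}

theorem sc_one (u : SF n U) : sc n U 1 u = u := by
  simp only [sc, one_pow, P275AR.gl_const, one_smul]

theorem sc_wd (t : ℂ) (u v : SF n U) : sc n U t (wd u v) = wd (sc n U t u) (sc n U t v) :=
  gr_pj.map_ext (f := (sc n U t ∘ₗ (wdL n U).flip v).toAddMonoidHom)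
    (g := ((wdL n U).flip (sc n U t v) ∘ₗ sc n U t).toAddMonoidHom) (fun j u =>
      gr_pj.map_ext (f := (sc n U t ∘ₗ wd (pj n U j u)).toAddMonoidHom)
        (g := (wd (sc n U t (pj n U j u)) ∘ₗ sc n U t).toAddMonoidHom) (fun k v => by
          change sc n U t (wd _ (pj n U k v)) = wd (sc n U t _) (sc n U t (pj n U k v))
          rw [sc_Dg t (k := j + k) (Nat.cast_add (R := ℤ) j k ▸ wd_Dg (pj_mem _ u) (pj_mem _ v)),
            sc_pj, sc_pj, wd_smul, map_smul, smul_smul, pow_add]) v) u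

theorem wd_sw (hε : ε = 1 ∨ ε = -1) (h : pr n U u = ε • u) (v : SF n U) :
    wd u (sc n U ε v) = wd v u := by
  rcases hε with rfl | rfl
  · simpa only [wd_one, sc_one] using wd_even (h.trans (one_smul _ _)) v (one n U)
  · simpa only [wd_one, pr_pr, sc_neg_one] using
      wd_odd (h.trans (neg_one_smul _ _)) (pr n U v) (one n U)

theorem pr_mu {ρ : U → ℝ} (hρ : SmoothFn (n := n) ρ) (u : SF n U) :
    pr n U (mu hρ u) = mu hρ (pr n U u) := by
  rw [Fl.mu_eq_wd, pr_wd, pr_Dg (mu_Dg hρ one_Dg), Int.negOnePow_zero, Units.val_one, Int.cast_one,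
    one_smul, ← Fl.mu_eq_wd]

/-- the even and the odd part -/
def prt (ε : ℂ) (y : SF n U) : SF n U := (2 : ℂ)⁻¹ • (y + ε • pr n U y)

theorem prt_add (y : SF n U) : prt 1 y + prt (-1) y = y := by
  rw [prt, prt]
  module

theorem pr_prt (hε : ε = 1 ∨ ε = -1) (y : SF n U) : pr n U (prt ε y) = ε • prt ε y := by
  rw [prt, map_smul, map_add, map_smul, pr_pr]
  rcases hε with rfl | rfl <;> module

theorem Ac_of_Sp {C O : Set U} (h : u ∈ Ac n univ) (h' : u ∈ Sp n C) (hC : IsClosed C)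
    (hO : C ⊆ O) : u ∈ Ac n O :=
  let ⟨K, h1, _, h3⟩ := h
  ⟨K ∩ C, h1.inter_right hC, inter_subset_right.trans hO, fun x hx =>
    (em (x ∈ K)).elim (fun k => h' x fun k' => hx ⟨k, k'⟩) (h3 x)⟩

variable (n U) in
/-- scaling of the forms with compact support -/
def scc (t : ℂ) : Module.End ℂ (Ac n (univ : Set U)) := (sc n U t).restrict fun _ h => loc_sc t h

variable [IsManifold 𝓘(ℂ, Cm n) ω U]

theorem pb_sc {d : ℕ} {X : Type} [TopologicalSpace X] [ChartedSpace (Cm d) X]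
    [IsManifold 𝓘(ℂ, Cm d) ω X] {f : X → U} (hf : Smo d n f) (t : ℂ) (u : SF n U) :
    pb hf (sc n U t u) = sc d X t (pb hf u) := pb_gl hf _ u

theorem dd_prt (h : dd n U y = 0) (ε : ℂ) : dd n U (prt ε y) = 0 := by
  rw [prt, map_smul, map_add, map_smul, dd_pr, h, map_zero, neg_zero, smul_zero, add_zero,
    smul_zero]

theorem dc_scc [T2Space U] {t : ℂ} (h : t ≠ 0) (a : Ac n (univ : Set U)) :
    dc n univ (scc n U t a) = t⁻¹ • scc n U t (dc n univ a) := Subtype.ext (dd_sc h a.1)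

end forms

theorem ne_of {ε : ℂ} (hε : ε = 1 ∨ ε = -1) : ε ≠ 0 := by
  rcases hε with rfl | rfl <;> norm_num

theorem Sy.map_sq {b : ℕ} {B : Type} [TopologicalSpace B] [ChartedSpace (Cm b) B] {c : Cov B}
    {F G : Type*} [AddCommGroup F] [Module ℂ F] [AddCommGroup G] [Module ℂ G] {S : Sy c F}
    {S' : Sy c G} {L : Module.End ℂ (SF b B)} {f : c.ι → F →ₗ[ℂ] F} {f' : c.ι → G →ₗ[ℂ] G}
    {g : c.ι → F →ₗ[ℂ] G} (hL : Loc L) (hf : S.Eqv S f) (hf' : S'.Eqv S' f') (hg : S.Eqv S' g)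
    (e : ∀ i x, g i (f i x) = f' i (g i x)) (u : Q b S) :
    S.map S' 1 g (S.map S L f u) = S'.map S' L f' (S.map S' 1 g u) := by
  rw [Sy.map_map Loc.one hg hL hf, Sy.map_map hL hf' Loc.one hg, one_mul, mul_one]
  exact congrArg (fun k => S.map S' L k u) (funext fun i => LinearMap.ext (e i))

namespace Fl

variable {N b m : ℕ} {T B M : Type} [TopologicalSpace T] [ChartedSpace (Cm N) T] [T2Space T]
  [IsManifold 𝓘(ℂ, Cm N) ω T] [TopologicalSpace B] [ChartedSpace (Cm b) B] [T2Space B]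
  [IsManifold 𝓘(ℂ, Cm b) ω B] [TopologicalSpace M] [ChartedSpace (Cm m) M] [T2Space M]
  [IsManifold 𝓘(ℂ, Cm m) ω M] (F : Fl N b m T B M) {c : Cp m M}

/-- the theorem of Kuenneth for the bundle -/
def KU : Prop := Qs (F.sy.Dq b (dc m univ)) (dc N univ) F.ka

variable (c) in
/-- algebraic transitions -/
def Ag : Prop := ∀ i j, Alg c c (F.t i j)

variable {F} (h : F.Ag c)
include h

theorem Ag.mo (i j : F.ι) : Mo c (cocompact M) c (cocompact M) (F.t i j) :=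
  .of_proper (h i j) (F.prt i j)

/-- the local system of the strict models -/
def Ag.st : Sy F.cv (TT (al_co c)) where
  τ i j := pull _ _ (F.t i j)
  self _ _ k x := by rw [funext (F.t_self k), pull_id]
  coc i j k _ h1 h2 h3 x := by rw [pull_pull (h.mo j k) (h.mo i j), funext (F.t_t h1 h2 h3)]

theorem Ag.tr : h.st.Tr (tri (al_co c)) := fun _ _ _ _ _ => pull_str _

theorem Ag.eqv_io : F.sy.Eqv h.st fun _ => io (al_co c) :=
  fun i j _ _ _ x => pull_io (h.mo i j) (F.prt i j) (F.smt i j) x _ rfl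

theorem Ag.zg (ku : F.KU) : Zg (dc N univ) (F.sy.Dq b (dc m univ)) (h.st.tri b (tri (al_co c))) F.ka
    (F.sy.map h.st 1 fun _ => io (al_co c)) :=
  ⟨Sy.tri_ok h.tr (tri_ok _), ku, Sy.tri_D (b := b) h.tr ▸ Sy.qs_map F.eqv_dc h.tr.eD P275AR.dc_dc
    (tri_ok _).DD0 h.eqv_io fun _ => qs_io _⟩

/-- **the weights** -/
def Ag.w (ku : F.KU) : ℕ → Module.End ℂ (Hc N (univ : Set T)) := (h.zg ku).w

theorem Ag.gr (ku : F.KU) : IsGr (h.w ku) := (h.zg ku).gr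

/-- operators which are given by an operator on the base and operators on the fibre -/
theorem Ag.grd_op (ku : F.KU) {ε : ℂ} (hε : ε ≠ 0) {s : ℕ} {L : Module.End ℂ (SF b B)}
    {f₀ : F.ι → Module.End ℂ (Ac m (univ : Set M))} {f : F.ι → Module.End ℂ (TT (al_co c))}
    {P : Module.End ℂ (Ac N (univ : Set T))} (k : Ch (dc N univ) (dc N univ) P) (hL : Loc L)
    (h1 : ∀ a, pr b B (L a) = L (pr b B a)) (h2 : ∀ a, dd b B (L a) = ε • L (dd b B a))
    (e₀ : F.sy.Eqv F.sy f₀) (e : h.st.Eqv h.st f)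
    (h3 : ∀ i x, dc m univ (f₀ i x) = ε • f₀ i (dc m univ x))
    (h4 : ∀ i, SM ε s (tri (al_co c)) (tri (al_co c)) (f i))
    (h5 : ∀ i x, f i (io _ x) = io _ (f₀ i x))
    (h6 : ∀ i, ∀ a ∈ Ac b (F.V i), ∀ (x : Ac m (univ : Set M)) (u : Ac N (univ : Set T)),
      u.1 = F.kp i a x → (P u).1 = F.kp i (L a) (f₀ i x)) :
    Grd (h.w ku) (h.w ku) s (Coh.map P k) := by
  have a1 : ∀ a, pr b B (L a) = (1 : ℂ) • L (pr b B a) := fun a => by rw [h1, one_smul]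
  have a2 : ∀ a, dd b B (L a) = (1 * ε) • L (dd b B a) := fun a => by rw [h2, one_mul]
  refine (h.zg ku).grd (h.zg ku) (g := F.sy.map F.sy L f₀) k
    ((Sy.sm_map h.tr h.tr hL e a1 a2 h4).mor (by rwa [one_mul])) (fun z hz => ?_)
    (F.sy.ext (f := F.ka ∘ₗ F.sy.map F.sy L f₀) (g := P ∘ₗ F.ka) fun i a ha x => Subtype.ext ?_)
    (Sy.map_sq hL e₀ e h.eqv_io fun i x => (h5 i x).symm)
  · rw [Sy.Dq_map F.eqv_dc F.eqv_dc hL e₀ a1 a2 h3, hz, map_zero, smul_zero]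
  · rw [LinearMap.comp_apply, LinearMap.comp_apply, Sy.map_gn hL e₀ ha, F.ka_gn (hL ha),
      h6 i a ha x _ (F.ka_gn ha x)]

omit h in
theorem kp_sc (t : ℂ) {i : F.ι} {a : SF b B} (ha : a ∈ Ac b (F.V i)) (x : SF m M) :
    sc N T t (F.kp i a x) = F.kp i (sc b B t a) (sc m M t x) :=
  (F.kp_eq (u := sc N T t _) (fun _ hz => op_ZP (opr_vl (cov_dgl _)) (F.kp_off ha x hz))
    (by rw [pb_sc, F.kp_val ha, pb_sc, pb_sc, sc_wd])).symm

/-- scaling by the degree -/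
theorem Ag.grd_sc (ku : F.KU) {t : ℂ} (ht : t ≠ 0) (k : Ch (dc N univ) (dc N univ) (scc N T t)) :
    Grd (h.w ku) (h.w ku) 0 (Coh.map _ k) :=
  h.grd_op ku (inv_ne_zero ht) (s := 0) k (loc_sc t) (sc_pr t) (dd_sc ht)
    (f₀ := fun _ => scc m M t) (f := fun _ => scT _ t)
    (fun _ _ _ _ _ x => Subtype.ext (pb_gl _ _ x.1)) (fun _ _ _ _ _ x => (pull_gl _ _ x).symm)
    (fun _ => dc_scc ht) (fun _ => sm_scT _ ht) (fun _ x => scT_io _ t x _ rfl)
    fun _ _ ha x _ e => (congrArg (sc N T t) e).trans (kp_sc t ha x.1)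

omit h in
theorem inv_t {Y : Type} {k₀ : F.ι → M → Y} {k : T → Y}
    (e : ∀ i z, F.p z ∈ F.V i → k z = k₀ i (F.q i z)) {i j : F.ι} {x : B} (hi : x ∈ F.V i)
    (hj : x ∈ F.V j) (y : M) : k₀ j (F.t i j y) = k₀ i y := by
  have h1 := F.ps i (x, y) hi
  rw [F.t_eq hi hj, ← e j _ (h1 ▸ hj), e i _ (h1 ▸ hi), F.qs i (x, y) hi]

/-- forms which come from a compact Kaehler manifold -/
theorem Ag.hyp (ku : F.KU) {e : ℕ} {Y : Mf e} {hY : Y.Kah} {k₀ : F.ι → M → Y.X} {k : T → Y.X}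
    (h0 : ∀ i, Alg c (.self Y hY) (k₀ i)) (h1 : ∀ i z, F.p z ∈ F.V i → k z = k₀ i (F.q i z)) {s : ℕ}
    {y : SF e Y.X} (h2 : y ∈ Dg e Y.X s) (h3 : del e Y.X y = 0) (h4 : dlb e Y.X y = 0)
    (hk : Smo N e k) (a : P275AR.Act univ univ (wd (pb hk y))) : Grd (h.w ku) (h.w ku) s a.map := by
  have hs := fun i => P280Z.Pu.smo_of (h0 i).hol
  have hx := fun i => xt_of (h0 i) (hs i) y
  have hy := fun i => wdT_hyp (h0 i) (hs i) h2 h3 h4
  have ht : ((-1 : ℂ) ^ s)⁻¹ = (-1) ^ s := by rw [← inv_pow, inv_neg, inv_one]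
  have hp : pr e Y.X y = (-1 : ℂ) ^ s • y := by rw [← pj_eq h2, pr_pj]
  have e1 : ∀ i j x, x ∈ F.V i → x ∈ F.V j → pb (F.smt i j) (pb (hs j) y) = pb (hs i) y :=
    fun i j x hi hj => pb_pb _ _ _ (inv_t h1 hi hj) y
  refine h.grd_op ku (ε := (-1) ^ s) (by simp) a.ch (loc_sc ((-1) ^ s)) (sc_pr _)
    (fun a => by rw [dd_sc (by simp), ht])
    (f₀ := fun i => (wd (pb (hs i) y)).restrict fun _ => wd_Ac _) (f := fun i => wdT _ (pb (hs i) y))
    (fun i j z hi hj x => Subtype.ext ((pb_wd _ _ _).trans (by rw [e1 i j z hi hj]; rfl)))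
    (fun i j z hi hj x => (pull_wdT (hx j) (h.mo i j) (F.smt i j) x).trans
      (by rw [e1 i j z hi hj]; rfl))
    (fun i x => Subtype.ext ?_)
    (fun i => ⟨fun t => (wdT_sgn (hx i) (hy i).1 (hy i).2.1 (hy i).2.2 t).1,
      fun t => (wdT_sgn (hx i) (hy i).1 (hy i).2.1 (hy i).2.2 t).2.1,
      fun t => (wdT_sgn (hx i) (hy i).1 (hy i).2.1 (hy i).2.2 t).2.2,
      wdT_dg (hx i) (hy i).1 (hy i).2.1 (hy i).2.2⟩) (fun i x => wdT_io (hx i) x _ rfl)
    fun i a ha x u hu => ?_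
  · change dd m M (wd _ x.1) = _ • wd _ (dd m M x.1)
    rw [dd_wd, ← del_add_dlb, (hy i).2.1, (hy i).2.2, add_zero, wd_zero, zero_add, ← pb_pr, hp,
      map_smul, wd_smul]
  · change wd (pb hk y) u.1 = F.kp i _ (wd _ x.1)
    rw [hu]
    rcases s.even_or_odd with k | k
    · rw [k.neg_one_pow, one_smul] at hp
      rw [k.neg_one_pow, sc_one, F.hyp_even hk (hs i) (h1 i) ha hp]
    · rw [k.neg_one_pow, neg_one_smul] at hp
      rw [k.neg_one_pow, sc_neg_one, F.hyp_odd hk (hs i) (h1 i) ha hp]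

end Fl

end Vale.Agent.P275FL
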