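import Vale.Agent.P275FL.Gl
import Vale.Agent.P275SM.Io

/-!
# P275, flat bundles: weights given by a zigzag, scaling by the degree
-/

set_option linter.unusedSectionVars false

open scoped Manifold ContDiff Topology
open Set Function Filter
open Vale.Agent.P272.K Vale.Agent.P281Z.Hg Vale.Agent.P275MC Vale.Agent.P275FM Vale.Agent.P275SM
open Vale.Agent.P275RG
open Vale.Agent.P275AR (dc Fam)

noncomputable section

namespace Vale.Agent.P275FL

section zg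

variable {T₀ P T T₀' P' T' : Type*} [AddCommGroup T₀] [Module ℂ T₀] [AddCommGroup P] [Module ℂ P]
  [AddCommGroup T] [Module ℂ T] [AddCommGroup T₀'] [Module ℂ T₀'] [AddCommGroup P'] [Module ℂ P']
  [AddCommGroup T'] [Module ℂ T']

/-- a zigzag of quasi-isomorphisms -/
structure Zg (D : Module.End ℂ T₀) (E : Module.End ℂ P) (X : Tri T) (κ : P →ₗ[ℂ] T₀)
    (ι : P →ₗ[ℂ] T) : Prop where
  ok : X.OK
  hκ : Qs E D κ
  hι : Qs E X.D ι

variable {D : Module.End ℂ T₀} {E : Module.End ℂ P} {X : Tri T} {κ : P →ₗ[ℂ] T₀} {ι : P →ₗ[ℂ] T}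
  {D' : Module.End ℂ T₀'} {E' : Module.End ℂ P'} {X' : Tri T'} {κ' : P' →ₗ[ℂ] T₀'}
  {ι' : P' →ₗ[ℂ] T'} (h : Zg D E X κ ι) (h' : Zg D' E' X' κ' ι')

/-- the comparison -/
def Zg.iso : Coh D ≃ₗ[ℂ] Coh X.D :=
  (LinearEquiv.ofBijective _ (h.hκ.bij h.hκ.ch)).symm ≪≫ₗ
    LinearEquiv.ofBijective _ (h.hι.bij h.hι.ch)

theorem Zg.iso_mk (z : P) (hz : E z = 0) (h1 : D (κ z) = 0) :
    h.iso (Coh.mk (κ z) h1) = Coh.mk (ι z) (h.hι.ch.cyc z hz) :=
  congrArg (Coh.map ι h.hι.ch)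
    ((LinearEquiv.ofBijective _ (h.hκ.bij h.hκ.ch)).symm_apply_apply (Coh.mk z hz))

include h in
theorem Zg.ind (x : Coh D) : ∃ z, ∃ (_ : E z = 0) (h1 : D (κ z) = 0), x = Coh.mk (κ z) h1 := by
  obtain ⟨y, rfl⟩ := (h.hκ.bij h.hκ.ch).2 x
  obtain ⟨z, hz, rfl⟩ := Coh.ind y
  exact ⟨z, hz, _, rfl⟩

/-- the weights -/
def Zg.w (q : ℕ) : Module.End ℂ (Coh D) := h.iso.symm.conj (h.ok.wt q)

theorem Zg.gr : IsGr h.w := h.ok.gr_wt.tr h.iso.symm

theorem Zg.iso_w (q : ℕ) (x : Coh D) : h.iso (h.w q x) = h.ok.wt q (h.iso x) :=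
  h.iso.apply_symm_apply _

theorem Zg.grd_to {V : Type*} [AddCommGroup V] [Module ℂ V] {w : ℕ → Module.End ℂ V} {s : ℤ}
    {φ : V →ₗ[ℂ] Coh D} {ψ : V →ₗ[ℂ] Coh X.D} (g : Grd w h.ok.wt s ψ)
    (e : ∀ x, h.iso (φ x) = ψ x) : Grd w h.w s φ := fun q q' x k =>
  h.iso.injective (by rw [h.iso_w, e, g q q' _ k, map_zero])

/-- maps which are induced by morphisms of the models are graded -/
theorem Zg.grd {s : ℕ} {f₀ : T₀ →ₗ[ℂ] T₀'} {g : P → P'} {f : T →ₗ[ℂ] T'} (c : Ch D D' f₀)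
    (hf : Tri.Mor X X' s f) (h0 : ∀ z, E z = 0 → E' (g z) = 0) (e1 : ∀ z, κ' (g z) = f₀ (κ z))
    (e2 : ∀ z, ι' (g z) = f (ι z)) : Grd h.w h'.w s (Coh.map f₀ c) :=
  h'.grd_to (ψ := Coh.map f hf.ch ∘ₗ h.iso.toLinearMap)
    (fun q q' x k => (congrArg (fun y => h'.ok.wt q' (Coh.map f hf.ch y)) (h.iso_w q x)).trans
      (h.ok.grd_mor h'.ok hf q q' _ k)) fun x => by
    obtain ⟨z, hz, h1, rfl⟩ := h.ind x
    rw [Coh.map_mk, Coh.mk_congr (e1 z).symm, h'.iso_mk _ (h0 z hz), LinearMap.comp_apply,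
      LinearEquiv.coe_coe, h.iso_mk z hz, Coh.map_mk]
    exact Coh.mk_congr (e2 z) _

/-- an operator which commutes with `Λ` commutes with the projectors on the eigenspaces -/
theorem comm_of_eig {p : ℕ → Module.End ℂ T} (g : IsGr p) {Λ w : Module.End ℂ T} {c : ℕ → ℂ}
    (hc : Injective c) (h1 : ∀ k x, Λ (p k x) = c k • p k x) (h2 : ∀ k x, p k (Λ x) = c k • p k x)
    (h : ∀ x, w (Λ x) = Λ (w x)) (k : ℕ) (x : T) : p k (w x) = w (p k x) := by
  have e : ∀ j k x, j ≠ k → p j (w (p k x)) = 0 := fun j k x hj => by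
    have h3 := h2 j (w (p k x))
    rw [← h, h1, map_smul, map_smul, ← sub_eq_zero, ← sub_smul, smul_eq_zero] at h3
    exact h3.resolve_left fun h4 => hj (hc (sub_eq_zero.1 h4)).symm
  refine g.map_ext (f := (p k ∘ₗ w).toAddMonoidHom) (g := (w ∘ₗ p k).toAddMonoidHom)
    (fun j y => ?_) x
  change p k (w (p j y)) = w (p k (p j y))
  rw [g.mul]
  split_ifs with hj
  · exact g.homog fun i hi => e i j y (hj ▸ hi)
  · rw [e k j y hj, map_zero]

end zg

variable {n : ℕ} {U : Type} [TopologicalSpace U] [ChartedSpace (Cm n) U]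

variable (n U) in
/-- multiplication by `t ^ q` in the degree `q` -/
def sc (t : ℂ) : Module.End ℂ (SF n U) := P275AR.gl n U fun q => t ^ q

theorem sc_neg_one : sc n U (-1) = pr n U := rfl

theorem loc_sc (t : ℂ) : Loc (sc n U t) := fun _ _ => op_Ac (opr_vl (cov_dgl _))

theorem sc_pr (t : ℂ) (a : SF n U) : pr n U (sc n U t a) = sc n U t (pr n U a) := by
  rw [P275AR.pr_eq, sc, P275AR.gl_gl, P275AR.gl_gl]
  simp only [mul_comm]

theorem sc_pj (t : ℂ) (k : ℕ) (a : SF n U) : sc n U t (pj n U k a) = t ^ k • pj n U k a := by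
  rw [P275AR.pj_eq', sc, P275AR.gl_gl, ← P275AR.gl_const, P275AR.gl_gl]
  refine P275AR.gl_congr (fun q _ => ?_) a
  split_ifs with h
  · rw [h]
  · rw [mul_zero, mul_zero]

theorem pj_sc (t : ℂ) (k : ℕ) (a : SF n U) : pj n U k (sc n U t a) = t ^ k • pj n U k a := by
  rw [← sc_pj, P275AR.pj_eq', sc, P275AR.gl_gl, P275AR.gl_gl]
  simp only [mul_comm]

theorem sc_Dg (t : ℂ) {k : ℕ} {a : SF n U} (h : a ∈ Dg n U k) : sc n U t a = t ^ k • a := by
  rw [← pj_eq h, sc_pj]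

variable [IsManifold 𝓘(ℂ, Cm n) ω U]

theorem gl_succ (t : ℂ) (a : SF n U) :
    P275AR.gl n U (fun q => t ^ (q + 1)) a = t • sc n U t a := by
  rw [sc, ← P275AR.gl_const, P275AR.gl_gl]
  simp only [pow_succ']

theorem dd_sc {t : ℂ} (h : t ≠ 0) (a : SF n U) :
    dd n U (sc n U t a) = t⁻¹ • sc n U t (dd n U a) := by
  rw [sc, P275AR.gl_dd, gl_succ, map_smul, inv_smul_smul₀ h, sc]

variable {c : Cp n U} {Φ : Filter U}

/-- multiplication by `t ^ m` in the total degree `m` -/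
def scT (h : Al c Φ) (t : ℂ) : Module.End ℂ (TT h) := gl h fun p q => t ^ (q + p)

theorem fam_succ {A : Fam} (t : ℂ) (e : A.σ → ℕ → ℕ) (u : A.T) :
    A.gl (fun s q => t ^ (e s q + 1)) u = t • A.gl (fun s q => t ^ e s q) u := by
  rw [← Fam.gl_const, Fam.gl_gl]
  simp only [pow_succ']

theorem sm_scT (h : Al c Φ) {t : ℂ} (ht : t ≠ 0) : SM t⁻¹ 0 (tri h) (tri h) (scT h t) := by
  have k : ∀ {O : Module.End ℂ (TT h)} {P : ∀ M : Mk c Φ, Module.End ℂ M.K.T},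
      (∀ M u, O (of h M u) = of h M (P M u)) → (∀ (M : Mk c Φ) u,
        M.K.gl (fun I q => t ^ (q + I.card)) (P M u) =
          P M (M.K.gl (fun I q => t ^ (q + I.card + 1)) u)) →
      ∀ u, O (scT h t u) = t⁻¹ • scT h t (O u) := fun {O P} e1 e2 u => by
    induction u using ind with | k M u _ =>
    rw [scT, gl_of, e1, e1, gl_of, e2, fam_succ, map_smul, map_smul, inv_smul_smul₀ ht]
  refine ⟨k (fun M => (str_of h M).A) fun M u => ?_, k (fun M => (str_of h M).B) fun M u => ?_,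
    k (fun M => (str_of h M).δ) fun M u => (arr_ok M.cln).gl_δ (fun p q => t ^ (q + p)) u,
    fun q u => ?_⟩
  · refine (Fam.gl_del _ _).trans ?_
    simp only [add_right_comm _ 1]
    rfl
  · change M.K.gl _ (M.K.d u - M.K.del u) = M.K.d _ - M.K.del _
    rw [map_sub, Fam.gl_d, Fam.gl_del]
    simp only [add_right_comm _ 1]
  · induction u using ind with | k M u _ =>
    rw [add_zero, scT, gl_of, (str_of h M).dg, (str_of h M).dg, gl_of]
    exact congrArg _ (Fam.gl_comm _ _ _)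

theorem scT_io [T2Space U] (h : Al c Φ) (t : ℂ) (a b : Ac n (univ : Set U))
    (e : (b : SF n U) = sc n U t a) : scT h t (io h a) = io h b := gl_io _ a b e

end Vale.Agent.P275FL
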